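import Vale.Agent.P363.KS.StructureSpec
import Vale.Agent.P363.Tool.Weak.Basic

/-!
P363: functions of `H¹` moved by orthogonal maps.
-/

noncomputable section

namespace Vale.Agent.P363.KS

open MeasureTheory Filter
open scoped BigOperators Topology RealInnerProductSpace

/-- The gradient of a composition with an orthogonal map. -/
def moveGrad (T : Space ≃ₗᵢ[ℝ] Space) (G : Fin 3 → Space → ℝ) (a : Fin 3) (x : Space) : ℝ :=
  (T.symm (WithLp.toLp 2 fun b => G b (T x))) a

theorem symm_coord (T : Space ≃ₗᵢ[ℝ] Space) (p : Fin 3 → ℝ) (a : Fin 3) :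
    (T.symm (WithLp.toLp 2 p)) a = ∑ b, p b * T (unit3 a) b := by
  have h : (T.symm (WithLp.toLp 2 p)) a = ⟪WithLp.toLp 2 p, T (unit3 a)⟫ := by
    rw [← T.apply_symm_apply (WithLp.toLp 2 p), T.inner_map_map, T.symm_apply_apply, unit3,
      EuclideanSpace.inner_single_right]
    simp
  rw [h, PiLp.inner_apply]
  simp [RCLike.inner_apply, mul_comm]

theorem apply_eq_sum (L : Space →L[ℝ] ℝ) (x : Space) : L x = ∑ b, L (unit3 b) * x b := by
  conv_lhs => rw [← (EuclideanSpace.basisFun (Fin 3) ℝ).sum_repr x]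
  simp [map_sum, map_smul, unit3, mul_comm]

theorem integral_move {G : Type*} [NormedAddCommGroup G] [NormedSpace ℝ G]
    (T : Space ≃ₗᵢ[ℝ] Space) (f : Space → G) : ∫ x, f (T x) = ∫ x, f x :=
  T.measurePreserving.integral_comp T.toHomeomorph.measurableEmbedding f

theorem memLp_move {f : Space → ℝ} (hf : MemLp f 2) (T : Space ≃ₗᵢ[ℝ] Space) :
    MemLp (fun x => f (T x)) 2 :=
  hf.comp_measurePreserving T.measurePreserving

theorem isH1_move {f : Space → ℝ} {F : Fin 3 → Space → ℝ} (h : Top.IsH1 f F)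
    (T : Space ≃ₗᵢ[ℝ] Space) : Top.IsH1 (fun x => f (T x)) (moveGrad T F) := by
  have e : ∀ a, moveGrad T F a = fun x => ∑ b, F b (T x) * T (unit3 a) b := fun a =>
    funext fun x => symm_coord T _ a
  have hm : ∀ a, MemLp (moveGrad T F a) 2 := fun a => by
    rw [e a]
    exact memLp_finsetSum _ fun b _ => (memLp_move (h.memLp_grad b) T).mul_const _
  refine ⟨memLp_move h.memLp T, hm, ((memLp_move h.memLp T).locallyIntegrable one_le_two).locallyIntegrableOn _,
    fun a => ((hm a).locallyIntegrable one_le_two).locallyIntegrableOn _, fun η hη a => ?_⟩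
  set ξ : Space → ℝ := fun y => η (T.symm y) with hξ
  have hξs : ContDiff ℝ ((⊤ : ℕ∞) : WithTop ℕ∞) ξ :=
    hη.smooth.comp T.symm.toContinuousLinearEquiv.contDiff
  have hξb : IsBump Set.univ ξ :=
    ⟨hξs, hη.compact.comp_homeomorph T.symm.toHomeomorph, Set.subset_univ _⟩
  have hd : ∀ x, deriv3 a η x = ∑ b, deriv3 b ξ (T x) * T (unit3 a) b := fun x => by
    rw [show deriv3 a η x = fderiv ℝ ξ (T x) (T (unit3 a)) from ?_]
    · exact apply_eq_sum _ _
    have hc : η = ξ ∘ T.toContinuousLinearEquiv := funext fun z => by simp [hξ]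
    conv_lhs => rw [deriv3, hc, T.toContinuousLinearEquiv.comp_right_fderiv]
    rfl
  have hL : ∀ b, Integrable fun y => f y * deriv3 b ξ y := fun b =>
    MemLp.integrable_mul (q := 2) h.memLp ((hξb.deriv b).continuous.memLp_of_hasCompactSupport (hξb.deriv b).compact)
  have hR : ∀ b, Integrable fun y => F b y * ξ y := fun b =>
    MemLp.integrable_mul (q := 2) (h.memLp_grad b) (hξb.continuous.memLp_of_hasCompactSupport hξb.compact)
  calc ∫ x, f (T x) * deriv3 a η x
      = ∫ y, ∑ b, f y * deriv3 b ξ y * T (unit3 a) b := by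
        rw [← integral_move T fun y => ∑ b, f y * deriv3 b ξ y * T (unit3 a) b]
        simp only [hd, Finset.mul_sum, mul_assoc]
    _ = ∑ b, -(∫ y, F b y * ξ y) * T (unit3 a) b := by
        rw [integral_finsetSum _ fun b _ => (hL b).mul_const _]
        refine Finset.sum_congr rfl fun b _ => ?_
        rw [integral_mul_const, h.grad.2.2 ξ hξb b]
    _ = -∫ x, moveGrad T F a x * η x := by
        simp only [neg_mul, Finset.sum_neg_distrib, ← integral_mul_const]
        rw [← integral_finsetSum _ fun b _ => (hR b).mul_const _,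
          ← integral_move T fun y => ∑ b, F b y * ξ y * T (unit3 a) b]
        simp only [e a, hξ, T.symm_apply_apply, Finset.sum_mul]
        congr 2
        funext x
        exact Finset.sum_congr rfl fun b _ => by ring

theorem bil_move {v : Space → ℝ} (e : ℝ) (T : Space ≃ₗᵢ[ℝ] Space)
    (hv : (fun x => v (T x)) =ᵐ[volume] v) (f g : Space → ℝ) (F G : Fin 3 → Space → ℝ) :
    Top.bil v e (fun x => f (T x)) (moveGrad T F) (fun x => g (T x)) (moveGrad T G) =
      Top.bil v e f F g G := by
  simp only [Top.bil]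
  rw [← integral_move T fun y => (1 / 2 : ℝ) * ∑ a, F a y * G a y + (v y - e) * f y * g y]
  refine integral_congr_ae ?_
  filter_upwards [hv] with x hx
  rw [hx]
  congr 2
  have h : ∀ p q : Space, ⟪p, q⟫ = ∑ a, p a * q a := fun p q => by
    simp [PiLp.inner_apply, RCLike.inner_apply, mul_comm]
  have := T.symm.inner_map_map (WithLp.toLp 2 fun b => F b (T x)) (WithLp.toLp 2 fun b => G b (T x))
  rw [h, h] at this
  exact this

theorem potential_symm {v : Space → ℝ} {T : Space ≃ₗᵢ[ℝ] Space}
    (hv : (fun x => v (T x)) =ᵐ[volume] v) : (fun x => v (T.symm x)) =ᵐ[volume] v := by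
  have := T.symm.measurePreserving.quasiMeasurePreserving.ae_eq_comp hv
  simpa [Function.comp_def] using this.symm

theorem isFormEigen_move {v g : Space → ℝ} {e : ℝ} {G : Fin 3 → Space → ℝ}
    (h : Top.IsFormEigen v e g G) (T : Space ≃ₗᵢ[ℝ] Space)
    (hv : (fun x => v (T x)) =ᵐ[volume] v) :
    Top.IsFormEigen v e (fun x => g (T x)) (moveGrad T G) := by
  refine ⟨isH1_move h.h1 T, fun w W hw => ?_⟩
  have e1 : (fun x => (fun y => w (T.symm y)) (T x)) = w := by simp
  have e2 : moveGrad T (moveGrad T.symm W) = W := by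
    funext a x
    simp only [moveGrad]
    simp
  conv_lhs => rw [← e1, ← e2]
  exact (bil_move e T hv g (fun y => w (T.symm y)) G (moveGrad T.symm W)).trans
    (h.eqn _ _ (isH1_move hw T.symm))

end Vale.Agent.P363.KS
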