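import Vale.Agent.P363.KS.Structure.Orbitals
import Vale.Agent.P363.KS.Structure.Pull
import Vale.Agent.P363.KS.Symmetrise
import Vale.Agent.P363.Tool.Sobolev.Main

/-!
P363: the shell structure of the density of a mixture of three-electron ground states.
-/

noncomputable section

namespace Vale.Agent.P363.KS

open MeasureTheory Filter
open scoped BigOperators Topology ENNReal

theorem bounded_inV {v : Space → ℝ} (hv : InV v) : Bounded v :=
  bounded_of_inV (weakBound_inV sobolev_six) hv

/-- `StructureSpec.ShellsStmt`. -/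
theorem shells : StructureSpec.ShellsStmt := by
  intro v w Φ ρ hV hw hΦ hρ
  have hv := bounded_inV hV
  have hW := oneBody_formBounded sobolev_six 3 v hV
  choose En G hG using fun k => ground_h1 _ _ _ hW (hΦ k)
  set E := En 0 with hEdef
  have hEk : ∀ k, GroundH1 (oneBody v) (Φ k) E (G k) := fun k => by
    rw [hEdef, energy_unique hW (hG 0) (hG k)]
    exact hG k
  choose S hS using fun k => exists_electrons hv (hEk k)
  obtain ⟨φ, hφ⟩ := exists_orbital ball_poincare (hS 0) (hEk 0).lower
  choose f hf using fun k => exists_orbitals (hS k) hφ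
    (filled ball_poincare (hS k) (hEk k).lower hφ)
  obtain ⟨e⟩ : Nonempty (ℕ ≃ ℕ × (Slot × ℕ)) := nonempty_equiv_of_countable
  set c : ℕ → ℝ := fun k => Real.sqrt (w k).toReal with hc
  set g : ℕ → h1 := fun j => c (e j).1 • f (e j).1 (e j).2 with hg
  have hwk : ∀ k, w k ≠ ∞ := fun k =>
    ne_top_of_le_ne_top ENNReal.one_ne_top (hw ▸ ENNReal.le_tsum k)
  have hc2 : ∀ k x, ENNReal.ofReal (c k ^ 2 * x) = w k * ENNReal.ofReal x := fun k x => by
    rw [hc, Real.sq_sqrt ENNReal.toReal_nonneg, ENNReal.ofReal_mul ENNReal.toReal_nonneg,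
      ENNReal.ofReal_toReal (hwk k)]
  refine ⟨fn φ, bottom hv, second hv E, fun j => fn (g j), ⟨⟨hv.1, fun u U hu => ?_, ⟨gr φ, ?_⟩,
    hφ.pos, fun u U hu ho => ?_⟩, ?_, ?_, fun u U hu h0 => ?_, fun j => ⟨gr (g j), ?_⟩,
    fun j => ?_, ?_, ?_⟩⟩
  · obtain ⟨C, -, hb⟩ := hv.2 1 one_pos
    exact (hb (mk (of_topH1 hu))).1
  · exact ⟨topH1 φ, fun u U hu => eigen_of_null hv hφ.null (mk (of_topH1 hu))⟩
  · exact second_le (hEk 0).lower hφ (w := mk (of_topH1 hu)) ho
  · have := gap_pos ball_poincare (hS 0)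
    rw [second]; linarith
  · rw [← ip_self]; exact hφ.unit
  · exact hφ.simple (mk (of_topH1 hu)) h0
  · refine ⟨topH1 _, fun u U hu => ?_⟩
    show form hv (second hv E) (g j) (mk (of_topH1 hu)) = 0
    simp only [hg, map_smul, LinearMap.smul_apply, smul_eq_mul, (hf _).eigen, mul_zero]
  · show ip (g j) φ = 0
    simp only [hg, map_smul, LinearMap.smul_apply, smul_eq_mul, (hf _).orth, mul_zero]
  · have e1 : ∀ j, ENNReal.ofReal (∫ x, fn (g j) x ^ 2) =
        w (e j).1 * ENNReal.ofReal (ip (f (e j).1 (e j).2) (f (e j).1 (e j).2)) := fun j => by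
      rw [← ip_self, hg, ← hc2, ← ip_smul_self]
    simp only [e1]
    rw [e.tsum_eq fun z => w z.1 * ENNReal.ofReal (ip (f z.1 z.2) (f z.1 z.2)), ENNReal.tsum_prod']
    simp only [ENNReal.tsum_mul_left, (hf _).total, mul_one, hw]
  · filter_upwards [hρ, ae_all_iff.2 fun k => (hf k).density_eq] with r hr hd
    have e1 : ∀ j, ENNReal.ofReal (fn (g j) r ^ 2) =
        w (e j).1 * ENNReal.ofReal (fn (f (e j).1 (e j).2) r ^ 2) := fun j => by
      rw [← hc2, hg, ← mul_pow]
      rfl
    simp only [e1]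
    rw [e.tsum_eq fun z => w z.1 * ENNReal.ofReal (fn (f z.1 z.2) r ^ 2), ENNReal.tsum_prod', hr]
    simp only [ENNReal.tsum_mul_left, hd, mul_add]
    rw [ENNReal.tsum_add, ENNReal.tsum_mul_right, hw, one_mul]

/-- `StructureSpec.WeakEqStmt`. -/
theorem weakEq : StructureSpec.WeakEqStmt := by
  intro v e f F hV h
  have hv := bounded_inV hV
  obtain ⟨C, -, hb⟩ := hv.2 1 one_pos
  have hvf : LocallyIntegrable fun x => 2 * (v x - e) * f x := by
    have h2 : LocallyIntegrable fun x => v x * f x := by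
      refine locallyIntegrable_iff.2 fun K hK => ?_
      refine Integrable.mono' (((hv.1.integrableOn_isCompact hK).norm).add
        ((hb (mk (of_topH1 h.h1))).1.norm.integrableOn (s := K)))
        ((hv.1.aestronglyMeasurable.mul h.h1.memLp.1).restrict) (.of_forall fun x => ?_)
      simp only [Pi.add_apply, fn_mk, Real.norm_eq_abs, abs_mul, abs_pow, sq_abs]
      have : |f x| ≤ 1 + f x ^ 2 := by
        nlinarith [sq_abs (f x), sq_nonneg (|f x| - 1), abs_nonneg (f x)]
      nlinarith [mul_le_mul_of_nonneg_left this (abs_nonneg (v x))]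
    refine (((h2.smul (2 : ℝ)).sub ((h.h1.memLp.locallyIntegrable one_le_two).smul (2 * e)))).congr
      (.of_forall fun x => ?_)
    simp only [Pi.sub_apply, Pi.smul_apply, smul_eq_mul]; ring
  refine ⟨(h.h1.memLp.locallyIntegrable one_le_two).locallyIntegrableOn _,
    hvf.locallyIntegrableOn _, fun η hη => ?_⟩
  have hη' : Top.IsH1 η fun a => deriv3 a η := topH1 (bumpH1 hη)
  have h0 := h.eqn η _ hη'
  rw [Top.bil] at h0
  have i1 : ∀ a, Integrable fun x => F a x * deriv3 a η x := fun a =>
    (h.h1.memLp_grad a).integrable_mul (hη'.memLp_grad a)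
  have i2 : Integrable fun x => (v x - e) * f x * η x :=
    (((integrable_pot_mul hv (mk (of_topH1 h.h1)) (bumpH1 hη))).sub
      ((h.h1.memLp.integrable_mul hη'.memLp).const_mul e)).congr (.of_forall fun x => by
        simp only [Pi.sub_apply, Pi.mul_apply, bumpH1, fn_mk]; ring)
  have i3 : ∀ a, Integrable fun x => f x * deriv3 a (deriv3 a η) x := fun a =>
    MemLp.integrable_mul (q := 2) h.h1.memLp (((hη.deriv a).deriv a).continuous.memLp_of_hasCompactSupport
      ((hη.deriv a).deriv a).compact)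
  rw [integral_add ((integrable_finsetSum _ fun a _ => i1 a).const_mul _) i2, integral_const_mul,
    integral_finsetSum _ fun a _ => i1 a] at h0
  calc ∫ x, f x * lap η x = ∑ a, ∫ x, f x * deriv3 a (deriv3 a η) x := by
        simp only [lap, Finset.mul_sum]
        exact integral_finsetSum _ fun a _ => i3 a
    _ = -∑ a, ∫ x, F a x * deriv3 a η x := by
        rw [← Finset.sum_neg_distrib]
        exact Finset.sum_congr rfl fun a _ => h.h1.grad.2.2 _ (hη.deriv a) a
    _ = ∫ x, 2 * (v x - e) * f x * η x := by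
        simp only [mul_assoc (2 : ℝ), integral_const_mul]
        linarith

/-- `StructureSpec.MoveStmt`. -/
theorem move : StructureSpec.MoveStmt := by
  intro v φ₀ e₀ μ f ρ T h hT
  refine ⟨?_, fun g G hg => ⟨_, isFormEigen_move hg T hT⟩⟩
  obtain ⟨F₀, hF₀⟩ := h.level.ground
  have hs := h.simple _ _ (isH1_move hF₀.h1 T)
    ((bil_move e₀ T hT _ _ _ _).trans (hF₀.eqn _ _ hF₀.h1))
  set c := ∫ y, φ₀ (T y) * φ₀ y with hc
  have hc1 : c ^ 2 = 1 := by
    have e1 : ∫ x, φ₀ (T x) ^ 2 = 1 :=
      (integral_move T fun x => φ₀ x ^ 2).trans h.norm_one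
    rw [integral_congr_ae (g := fun x => c ^ 2 * φ₀ x ^ 2)
      (hs.mono fun x hx => by simp only [hx, mul_pow]), integral_const_mul, h.norm_one, mul_one] at e1
    exact e1
  have hc0 : 0 ≤ c := integral_nonneg_of_ae (by
    filter_upwards [h.level.pos, T.measurePreserving.quasiMeasurePreserving.ae h.level.pos]
      with x h1 h2 using mul_nonneg h2.le h1.le)
  have hc' : c = 1 := by nlinarith
  filter_upwards [hs] with x hx
  rw [hx, hc', one_mul]

end Vale.Agent.P363.KS
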