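import Vale.Agent.P363.KS.Structure.Form
import Vale.Agent.P363.KS.FormLip

/-!
P363: an orbital of one spin is occupied at most once by an antisymmetric function.
-/

noncomputable section

namespace Vale.Agent.P363.KS

open MeasureTheory Filter
open scoped BigOperators Topology

variable {n : ℕ}

/-- `(others, position)` to configurations. -/
def insY (i : Fin (n + 1)) (z : Cfg n × Space) : Cfg (n + 1) := i.insertNth z.2 z.1

theorem mp_insY (i : Fin (n + 1)) :
    MeasurePreserving (insY i) ((volume : Measure (Cfg n)).prod volume) volume := by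
  have h := (volume_preserving_piFinSuccAbove (fun _ : Fin (n + 1) => Space) i).symm _
  rw [Measure.volume_eq_prod] at h
  exact h.comp Measure.measurePreserving_swap

theorem embedding_insY (i : Fin (n + 1)) : MeasurableEmbedding (insY (n := n) i) :=
  (MeasurableEquiv.piFinSuccAbove (fun _ : Fin (n + 1) => Space) i).symm.measurableEmbedding.comp
    MeasurableEquiv.prodComm.measurableEmbedding

theorem memLp_insY {G : Type*} [NormedAddCommGroup G] (i : Fin (n + 1)) {f : Cfg (n + 1) → G}
    (hf : MemLp f 2) : MemLp (fun z => f (insY i z)) 2 ((volume : Measure (Cfg n)).prod volume) :=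
  hf.comp_measurePreserving (mp_insY i)

theorem integral_insY {G : Type*} [NormedAddCommGroup G] [NormedSpace ℝ G] (i : Fin (n + 1))
    (f : Cfg (n + 1) → G) :
    ∫ z, f (insY i z) ∂((volume : Measure (Cfg n)).prod volume) = ∫ x, f x :=
  (mp_insY i).integral_comp (embedding_insY i) f

/-- The coefficient of an orbital in the slot `i`. -/
def coef (χ : Space → ℝ) (i : Fin (n + 1)) (F : Cfg (n + 1) → ℝ) (y : Cfg n) : ℝ :=
  ∫ r, χ r * F (insY i (y, r))

theorem memLp_coef {χ : Space → ℝ} (hχ : MemLp χ 2) (i : Fin (n + 1)) {F : Cfg (n + 1) → ℝ}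
    (hF : MemLp F 2) :
    MemLp (coef χ i F) 2 ∧ ∫ y, coef χ i F y ^ 2 ≤ (∫ r, χ r ^ 2) * ∫ x, F x ^ 2 := by
  have hp := memLp_insY i hF
  have hm : AEStronglyMeasurable (coef χ i F) :=
    (hχ.1.comp_snd.mul hp.1).integral_prod_right'
  have hb : ∀ᵐ y, coef χ i F y ^ 2 ≤ (∫ r, χ r ^ 2) * ∫ r, F (insY i (y, r)) ^ 2 := by
    filter_upwards [hp.integrable_sq.prod_right_ae, hp.1.prodMk_left] with y h1 h2
    rw [← sq_abs]
    refine (pow_le_pow_left₀ (abs_nonneg _)
      (abs_integral_mul_le hχ ((memLp_two_iff_integrable_sq h2).2 h1)) 2).trans_eq ?_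
    rw [mul_pow, Real.sq_sqrt (integral_nonneg fun _ => sq_nonneg _),
      Real.sq_sqrt (integral_nonneg fun _ => sq_nonneg _)]
  have hi : Integrable fun y => coef χ i F y ^ 2 :=
    (hp.integrable_sq.integral_prod_left.const_mul (∫ r, χ r ^ 2)).mono' (hm.pow 2) (hb.mono fun y hy => by
      rwa [Real.norm_of_nonneg (sq_nonneg _)])
  refine ⟨(memLp_two_iff_integrable_sq hm).2 hi, ?_⟩
  refine (integral_mono_ae hi (hp.integrable_sq.integral_prod_left.const_mul _) hb).trans_eq ?_
  rw [integral_const_mul, ← integral_prod (fun z => F (insY i z) ^ 2) hp.integrable_sq,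
    integral_insY i fun x => F x ^ 2]

/-- A square integrable orbital times a square integrable function of the other electrons. -/
theorem tensor {χ : Space → ℝ} (hχ : MemLp χ 2) (i : Fin (n + 1)) {g : Cfg n → ℝ}
    (hg : MemLp g 2) :
    MemLp (fun x : Cfg (n + 1) => χ (x i) * g (i.removeNth x)) 2 ∧
      ∫ x : Cfg (n + 1), (χ (x i) * g (i.removeNth x)) ^ 2 = (∫ r, χ r ^ 2) * ∫ y, g y ^ 2 := by
  have e : ∀ z : Cfg n × Space,
      χ (insY i z i) * g (i.removeNth (insY i z)) = g z.1 * χ z.2 := fun z => by
    simp [insY, Fin.removeNth_insertNth, mul_comm]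
  have hp : MemLp (fun z : Cfg n × Space => g z.1 * χ z.2) 2
      ((volume : Measure (Cfg n)).prod volume) :=
    (memLp_two_iff_integrable_sq (hg.1.comp_fst.mul hχ.1.comp_snd)).2
      ((hg.integrable_sq.mul_prod hχ.integrable_sq).congr (.of_forall fun z => (mul_pow _ _ _).symm))
  have hme : MemLp (fun x : Cfg (n + 1) => χ (x i) * g (i.removeNth x)) 2 := by
    rw [← (mp_insY i).map_eq, (embedding_insY i).memLp_map_measure_iff]
    exact hp.ae_eq (.of_forall fun z => (e z).symm)
  refine ⟨hme, ?_⟩
  rw [← integral_insY i fun x : Cfg (n + 1) => (χ (x i) * g (i.removeNth x)) ^ 2]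
  simp only [e, mul_pow]
  rw [integral_prod_mul (fun y => g y ^ 2) fun r => χ r ^ 2, mul_comm]

variable {F : Spins (n + 1) → Cfg (n + 1) → ℝ}

/-- Two electrons of one spin do not occupy one orbital. -/
theorem cross_zero {χ : Space → ℝ} (hχ : MemLp χ 2) (hFc : ∀ s, Continuous (F s))
    (hFs : ∀ s, HasCompactSupport (F s))
    (hFa : ∀ (p : Equiv.Perm (Fin (n + 1))) s x,
      F (s ∘ p) (x ∘ p) = ((Equiv.Perm.sign p : ℤ) : ℝ) * F s x)
    {s : Spins (n + 1)} {i j : Fin (n + 1)} (hij : i ≠ j) (hs : s i = s j) (y : Cfg n) :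
    ∫ r, χ r * coef χ j (F s) (j.removeNth (insY i (y, r))) = 0 := by
  set H : Space × Space → ℝ := fun z => F s (Function.update (insY i (y, z.1)) j z.2) with hH
  have he : ∀ r t, insY j (j.removeNth (insY i (y, r)), t) =
      Function.update (insY i (y, r)) j t := fun r t => by
    funext k
    rcases Fin.eq_self_or_eq_succAbove j k with rfl | ⟨l, rfl⟩
    · simp [insY]
    · simp [insY, Fin.removeNth]
  have hval : ∀ z : Space × Space, Function.update (insY i (y, z.1)) j z.2 i = z.1 ∧
      Function.update (insY i (y, z.1)) j z.2 j = z.2 := fun z =>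
    ⟨by simp [Function.update_of_ne hij, insY], Function.update_self _ _ _⟩
  have hmapc : Continuous fun z : Space × Space => Function.update (insY i (y, z.1)) j z.2 :=
    ((continuous_fst (X := Space) (Y := Space)).finInsertNth (A := fun _ : Fin (n + 1) => Space) i
      (continuous_const (y := y))).update j continuous_snd
  have hHs : HasCompactSupport H := by
    refine HasCompactSupport.of_support_subset_isCompact
      (((hFs s).isCompact.image (continuous_apply i)).prod
        ((hFs s).isCompact.image (continuous_apply j))) ?_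
    intro z hz
    exact ⟨⟨_, subset_tsupport _ hz, (hval z).1⟩, ⟨_, subset_tsupport _ hz, (hval z).2⟩⟩
  have hHa : ∀ r t, H (t, r) = -H (r, t) := by
    intro r t
    have hp := hFa (Equiv.swap i j) s (Function.update (insY i (y, r)) j t)
    have hsp : s ∘ Equiv.swap i j = s := by
      funext k
      rcases eq_or_ne k i with rfl | h1
      · simp [hs]
      rcases eq_or_ne k j with rfl | h2
      · simp [hs]
      simp [Equiv.swap_apply_of_ne_of_ne h1 h2]
    have hxp : Function.update (insY i (y, r)) j t ∘ Equiv.swap i j =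
        Function.update (insY i (y, t)) j r := by
      funext k
      rcases eq_or_ne k i with rfl | h1
      · simp [Function.update_of_ne hij, insY]
      rcases eq_or_ne k j with rfl | h2
      · simp [Function.update_of_ne hij, insY]
      obtain ⟨l, rfl⟩ := Fin.exists_succAbove_eq h1
      simp [Equiv.swap_apply_of_ne_of_ne h1 h2, Function.update_of_ne h2, insY]
    rw [hsp, hxp, Equiv.Perm.sign_swap hij] at hp
    simpa [hH] using hp
  have hpp : MemLp (fun z : Space × Space => χ z.1 * χ z.2) 2
      ((volume : Measure Space).prod volume) :=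
    (memLp_two_iff_integrable_sq (hχ.1.comp_fst.mul hχ.1.comp_snd)).2
      ((hχ.integrable_sq.mul_prod hχ.integrable_sq).congr (.of_forall fun z => (mul_pow _ _ _).symm))
  have hK : Integrable (fun z : Space × Space => χ z.1 * χ z.2 * H z)
      ((volume : Measure Space).prod volume) :=
    MemLp.integrable_mul (q := 2) hpp
      (show MemLp H 2 _ from ((hFc s).comp hmapc).memLp_of_hasCompactSupport hHs)
  have h2 : ∫ r, ∫ t, χ r * χ t * H (r, t) = -∫ r, ∫ t, χ r * χ t * H (r, t) := by
    conv_lhs => rw [integral_integral_swap hK]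
    rw [← integral_neg]
    refine integral_congr_ae (.of_forall fun r => ?_)
    simp only
    rw [← integral_neg]
    exact integral_congr_ae (.of_forall fun t => by simp only [hHa r t]; ring)
  simp only [coef, he, ← integral_const_mul]
  simp only [← mul_assoc]
  linarith

/-- Pauli's bound for continuous antisymmetric functions of compact support. -/
theorem pauli_test {χ : Space → ℝ} (hχ : MemLp χ 2) (σ : Fin 2) (hFc : ∀ s, Continuous (F s))
    (hFs : ∀ s, HasCompactSupport (F s))
    (hFa : ∀ (p : Equiv.Perm (Fin (n + 1))) s x,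
      F (s ∘ p) (x ∘ p) = ((Equiv.Perm.sign p : ℤ) : ℝ) * F s x) :
    ∑ i, ∑ s, (if s i = σ then ∫ y, coef χ i (F s) y ^ 2 else 0) ≤
      (∫ r, χ r ^ 2) * ∑ s, ∫ x, F s x ^ 2 := by
  have hF2 : ∀ s, MemLp (F s) 2 := fun s => (hFc s).memLp_of_hasCompactSupport (hFs s)
  set A := ∫ r, χ r ^ 2 with hA
  set c := fun i s => coef χ i (F s) with hc
  have hc2 : ∀ i s, MemLp (c i s) 2 := fun i s => (memLp_coef hχ i (hF2 s)).1
  rcases (show 0 ≤ A from integral_nonneg fun _ => sq_nonneg _).eq_or_lt with h0 | hA0
  · rw [← h0, zero_mul]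
    refine Finset.sum_nonpos fun i _ => Finset.sum_nonpos fun s _ => ?_
    have := (memLp_coef hχ i (hF2 s)).2
    rw [← hA, ← h0, zero_mul] at this
    split <;> simp [this]
  set T : Spins (n + 1) → Fin (n + 1) → Cfg (n + 1) → ℝ := fun s i x =>
    if s i = σ then χ (x i) * c i s (i.removeNth x) else 0 with hT
  set q := fun i s => if s i = σ then ∫ y, c i s y ^ 2 else 0 with hq
  have hT2 : ∀ s i, MemLp (T s i) 2 := by
    intro s i
    simp only [hT]
    split
    · exact (tensor hχ i (hc2 i s)).1
    · exact MemLp.zero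
  have hTT : ∀ s i j, ∫ x, T s i x * T s j x = if i = j then A * q i s else 0 := by
    intro s i j
    rcases eq_or_ne i j with rfl | hij
    · rw [if_pos rfl]
      simp only [hT, hq]
      split
      · rw [← (tensor hχ i (hc2 i s)).2]
        simp only [sq]
      · simp
    rw [if_neg hij]
    by_cases h : s i = σ ∧ s j = σ
    · obtain ⟨hi, hj⟩ := h
      obtain ⟨l, rfl⟩ := Fin.exists_succAbove_eq hij.symm
      have hint : Integrable
          (fun z => T s i (insY i z) * T s (i.succAbove l) (insY i z))
          ((volume : Measure (Cfg n)).prod volume) :=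
        (mp_insY i).integrable_comp_of_integrable
          ((hT2 s i).integrable_mul (hT2 s (i.succAbove l)))
      rw [← integral_insY i (fun x => T s i x * T s (i.succAbove l) x), integral_prod _ hint]
      refine integral_eq_zero_of_ae (.of_forall fun y => ?_)
      simp only [hT, if_pos hi, if_pos hj, Pi.zero_apply]
      have e : ∀ r, χ (insY i (y, r) i) * c i s (i.removeNth (insY i (y, r))) *
          (χ (insY i (y, r) (i.succAbove l)) *
            c (i.succAbove l) s ((i.succAbove l).removeNth (insY i (y, r)))) =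
          (c i s y * χ (y l)) *
            (χ r * c (i.succAbove l) s ((i.succAbove l).removeNth (insY i (y, r)))) := fun r => by
        simp only [insY, Fin.insertNth_apply_same, Fin.removeNth_insertNth,
          Fin.insertNth_apply_succAbove]
        ring
      simp only [e, integral_const_mul]
      rw [cross_zero hχ hFc hFs hFa hij (hi.trans hj.symm) y, mul_zero]
    · simp only [hT]
      rcases not_and_or.1 h with h | h <;> simp [h]
  have hFT : ∀ s i, ∫ x, F s x * T s i x = q i s := by
    intro s i
    simp only [hT, hq]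
    split
    · have hint : Integrable (fun z => F s (insY i z) *
          (χ (insY i z i) * c i s (i.removeNth (insY i z))))
          ((volume : Measure (Cfg n)).prod volume) :=
        (mp_insY i).integrable_comp_of_integrable
          ((hF2 s).integrable_mul (tensor hχ i (hc2 i s)).1)
      rw [← integral_insY i fun x : Cfg (n + 1) => F s x * (χ (x i) * c i s (i.removeNth x)),
        integral_prod _ hint]
      refine integral_congr_ae (.of_forall fun y => ?_)
      simp only [insY, Fin.insertNth_apply_same, Fin.removeNth_insertNth, hc]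
      have e : ∀ r, F s (i.insertNth r y) * (χ r * coef χ i (F s) y) =
          coef χ i (F s) y * (χ r * F s (i.insertNth r y)) := fun r => by ring
      simp only [e, integral_const_mul, sq]
      rfl
    · simp
  have key : ∀ s, 0 ≤ A ^ 2 * (∫ x, F s x ^ 2) - A * ∑ i, q i s := by
    intro s
    have i0 := (hF2 s).integrable_sq.const_mul (A ^ 2)
    have i1 : ∀ i, Integrable fun x => 2 * A * (F s x * T s i x) := fun i =>
      ((hF2 s).integrable_mul (hT2 s i)).const_mul _
    have i2 : ∀ i, Integrable fun x => ∑ j, T s i x * T s j x := fun i =>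
      integrable_finsetSum _ fun j _ => (hT2 s i).integrable_mul (hT2 s j)
    have h := integral_nonneg (μ := (volume : Measure (Cfg (n + 1))))
      (f := fun x => (A * F s x - ∑ i, T s i x) ^ 2) fun x => sq_nonneg _
    have e : (fun x => (A * F s x - ∑ i, T s i x) ^ 2) = fun x => A ^ 2 * F s x ^ 2 -
        ∑ i, 2 * A * (F s x * T s i x) + ∑ i, ∑ j, T s i x * T s j x := by
      funext x
      rw [← Finset.sum_mul_sum, ← Finset.mul_sum, ← Finset.mul_sum]
      ring
    rw [e, integral_add (f := fun x => A ^ 2 * F s x ^ 2 - ∑ i, 2 * A * (F s x * T s i x))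
        (i0.sub (integrable_finsetSum _ fun i _ => i1 i))
        (integrable_finsetSum _ fun i _ => i2 i),
      integral_sub i0 (integrable_finsetSum _ fun i _ => i1 i),
      integral_finsetSum _ (fun i _ => i1 i), integral_finsetSum _ (fun i _ => i2 i)] at h
    have hij : ∀ i, ∫ x, ∑ j, T s i x * T s j x = A * q i s := fun i => by
      rw [integral_finsetSum (f := fun j x => T s i x * T s j x) _ fun j _ =>
        (hT2 s i).integrable_mul (hT2 s j)]
      simp [hTT]
    rw [Finset.sum_congr rfl fun i _ => hij i] at h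
    simp only [integral_const_mul, hFT, ← Finset.mul_sum] at h
    linarith
  have hsum := Finset.sum_nonneg (s := Finset.univ) fun s _ => key s
  rw [Finset.sum_sub_distrib, ← Finset.mul_sum, ← Finset.mul_sum, Finset.sum_comm] at hsum
  rw [← mul_le_mul_iff_right₀ hA0]
  nlinarith

end Vale.Agent.P363.KS
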