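import Vale.Agent.P363.KS.Structure.Family
import Vale.Agent.P363.KS.Structure.Pauli
import Vale.Agent.P363.KS.FormTest

/-!
P363: a ground state of three electrons as families of one-electron orbitals.
-/

noncomputable section

namespace Vale.Agent.P363.KS

open MeasureTheory Filter
open scoped BigOperators Topology ENNReal

/-- A slot, the spins of all electrons, and real or imaginary part. -/
abbrev Slot : Type := Fin 3 × Spins 3 × Bool

/-- The spin in the slot. -/
def Slot.spin (p : Slot) : Fin 2 := p.2.1 p.1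

/-- Real and imaginary part. -/
def part (b : Bool) : ℂ →L[ℝ] ℝ := cond b Complex.reCLM Complex.imCLM

theorem part_sq_le (b : Bool) (z : ℂ) : part b z ^ 2 ≤ ‖z‖ ^ 2 := by
  rw [Complex.sq_norm, Complex.normSq_apply]
  cases b <;> simp [part, sq, mul_self_nonneg]

theorem part_sq_sum (z : ℂ) : ∑ b, part b z ^ 2 = ‖z‖ ^ 2 := by
  rw [Complex.sq_norm, Complex.normSq_apply]
  simp [part, sq]

theorem memLp_part {α : Type*} [MeasurableSpace α] {μ : Measure α} (b : Bool) {f : α → ℂ}
    (hf : MemLp f 2 μ) : MemLp (fun x => part b (f x)) 2 μ :=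
  (part b).comp_memLp' hf

variable {v : Space → ℝ} {Φ : Spins 3 → Cfg 3 → ℂ} {E : ℝ}
  {G : Spins 3 → Fin 3 → Fin 3 → Cfg 3 → ℂ}

theorem exists_family (h : GroundH1 (oneBody v) Φ E G) (p : Slot) : ∃ S : Family (Cfg 2),
    (S.F = fun y r => part p.2.2 (Φ p.2.1 (insY p.1 (y, r)))) ∧
    S.D = fun a y r => part p.2.2 (G p.2.1 p.1 a (insY p.1 (y, r))) := by
  obtain ⟨i, s, b⟩ := p
  obtain ⟨φ, hφ⟩ := h.approx
  have hg := h.hasGrad s
  have mF : ∀ k, MemLp (fun x => φ k s x - Φ s x) 2 := fun k =>
    ((hφ.test k).1.memLp s).sub hg.memLp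
  have mD : ∀ k a, MemLp (fun x => cfgDeriv i a (φ k s) x - G s i a x) 2 := fun k a =>
    ((hφ.test k).1.memLp_deriv s i a).sub (hg.memLp_grad i a)
  set Q : ℕ → Cfg 3 → ℝ := fun k x =>
    ‖φ k s x - Φ s x‖ ^ 2 + ∑ a, ‖cfgDeriv i a (φ k s) x - G s i a x‖ ^ 2 with hQ
  have hQi : ∀ k, Integrable (Q k) := fun k => ((mF k).integrable_norm_pow two_ne_zero).add
    (integrable_finsetSum _ fun a _ => (mD k a).integrable_norm_pow two_ne_zero)
  have hQp : ∀ k, Integrable (fun z => Q k (insY i z)) ((volume : Measure (Cfg 2)).prod volume) :=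
    fun k => (mp_insY i).integrable_comp_of_integrable (hQi k)
  set T : ℕ → Cfg 2 → ℝ := fun k y => ∫ r, Q k (insY i (y, r)) with hT
  have hTi : ∀ k, Integrable (T k) := fun k => (hQp k).integral_prod_left
  have hT0 : ∀ k y, 0 ≤ T k y := fun k y => integral_nonneg fun r =>
    add_nonneg (sq_nonneg _) (Finset.sum_nonneg fun _ _ => sq_nonneg _)
  have h1 : Tendsto (fun k => eLpNorm (T k - 0) 1 volume) atTop (𝓝 0) := by
    have e : ∀ k, eLpNorm (T k - 0) 1 volume = ENNReal.ofReal (∫ x, Q k x) := fun k => by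
      rw [sub_zero, eLpNorm_one_eq_lintegral_enorm,
        ← ofReal_integral_norm_eq_lintegral_enorm (hTi k), ← integral_insY i (Q k),
        integral_prod _ (hQp k)]
      exact congrArg _ (integral_congr_ae (.of_forall fun y => Real.norm_of_nonneg (hT0 k y)))
    have hlim : Tendsto (fun k => ∫ x, Q k x) atTop (𝓝 0) := by
      have := (hφ.value s).add (tendsto_finsetSum Finset.univ fun a _ => hφ.grad s i a)
      simp only [Finset.sum_const_zero, add_zero] at this
      refine this.congr fun k => ?_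
      rw [← integral_finsetSum _ fun a _ => (mD k a).integrable_norm_pow two_ne_zero,
        ← integral_add ((mF k).integrable_norm_pow two_ne_zero)
          (integrable_finsetSum _ fun a _ => (mD k a).integrable_norm_pow two_ne_zero)]
    simp only [e]
    simpa using ENNReal.tendsto_ofReal hlim
  obtain ⟨ns, -, hlim⟩ := (tendstoInMeasure_of_tendsto_eLpNorm (p := 1) one_ne_zero
    (fun k => (hTi k).1) aestronglyMeasurable_zero h1).exists_seq_tendsto_ae
  have sF := memLp_insY i (memLp_part b hg.memLp)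
  have sD := fun a => memLp_insY i (memLp_part b (hg.memLp_grad i a))
  refine ⟨⟨_, _, sF, sD, ?_⟩, rfl, rfl⟩
  have hslice : ∀ {f : Cfg 2 × Space → ℝ},
      MemLp f 2 ((volume : Measure (Cfg 2)).prod volume) →
      ∀ᵐ y, MemLp (fun r => f (y, r)) 2 := by
    intro f hf
    filter_upwards [hf.1.prodMk_left, hf.integrable_sq.prod_right_ae] with y h1 h2
    exact (memLp_two_iff_integrable_sq h1).2 h2
  have hdiff : ∀ k, ∀ᵐ y : Cfg 2, ∀ᵐ r : Space, DifferentiableAt ℝ (φ k s) (i.insertNth r y) := by
    intro k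
    obtain ⟨K, hK⟩ := (hφ.test k).1.lipschitz s
    exact ae_slice i hK.ae_differentiableAt
  filter_upwards [hlim, ae_all_iff.2 fun k => (hQp k).prod_right_ae, ae_all_iff.2 hdiff,
    hslice sF, ae_all_iff.2 fun a => hslice (sD a)] with y hy hQy hd hF hD
  set f : ℕ → Space → ℝ := fun j r => part b (φ (ns j) s (insY i (y, r))) with hf
  set g : ℕ → Fin 3 → Space → ℝ :=
    fun j a r => part b (cfgDeriv i a (φ (ns j) s) (insY i (y, r))) with hg'
  have hfl : ∀ j, ∃ K, LipschitzWith K (f j) ∧ HasCompactSupport (f j) := by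
    intro j
    obtain ⟨K, hK⟩ := (hφ.test (ns j)).1.lipschitz s
    obtain ⟨hK', hc'⟩ := slice_lip i hK ((hφ.test (ns j)).1.compact s) y
    exact ⟨_, (part b).lipschitz.comp hK', hc'.comp_left (g := part b) (map_zero _)⟩
  choose K hK hc using hfl
  have hj : ∀ j, IsH1 (f j) (g j) := by
    intro j
    have e : ∀ a, deriv3 a (f j) =ᵐ[volume] g j a := by
      intro a
      filter_upwards [hd (ns j)] with r hr
      have hsl : DifferentiableAt ℝ (fun r => φ (ns j) s (i.insertNth r y)) r := by
        refine hr.comp r ?_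
        exact (differentiable_pi.2 fun l => by
          rcases Fin.eq_self_or_eq_succAbove i l with rfl | ⟨m, rfl⟩ <;>
            simp) r
      have := ((part b).hasFDerivAt.comp r hsl.hasFDerivAt).fderiv
      rw [deriv3, show f j = part b ∘ fun r => φ (ns j) s (i.insertNth r y) from rfl, this,
        ContinuousLinearMap.comp_apply, fderiv_slice i r y hr]
      rfl
    have h0 := isH1_of_lip (hK j) (hc j)
    refine ⟨h0.memLp, fun a => (h0.grad_memLp a).ae_eq (e a), h0.weak.1,
      fun a => (((h0.grad_memLp a).ae_eq (e a)).locallyIntegrable one_le_two).locallyIntegrableOn _,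
      fun η hη a => ?_⟩
    rw [h0.weak.2.2 η hη a]
    refine congrArg _ (integral_congr_ae ?_)
    filter_upwards [e a] with r hr
    rw [hr]
  have hb : ∀ (z w : ℂ), (part b z - part b w) ^ 2 ≤ ‖z - w‖ ^ 2 := fun z w => by
    rw [← map_sub]; exact part_sq_le b _
  have lf : Tendsto (fun j => ∫ r, (f j r - part b (Φ s (insY i (y, r)))) ^ 2) atTop (𝓝 0) :=
    squeeze_zero (fun j => integral_nonneg fun r => sq_nonneg _) (fun j =>
      integral_mono_of_nonneg (.of_forall fun r => sq_nonneg _) (hQy (ns j))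
        (.of_forall fun r => (hb _ _).trans
          (le_add_of_nonneg_right (Finset.sum_nonneg fun _ _ => sq_nonneg _)))) hy
  have lg : ∀ a, Tendsto (fun j => ∫ r, (g j a r - part b (G s i a (insY i (y, r)))) ^ 2)
      atTop (𝓝 0) := fun a =>
    squeeze_zero (fun j => integral_nonneg fun r => sq_nonneg _) (fun j =>
      integral_mono_of_nonneg (.of_forall fun r => sq_nonneg _) (hQy (ns j))
        (.of_forall fun r => (hb _ _).trans ((Finset.single_le_sum
          (f := fun a => ‖cfgDeriv i a (φ (ns j) s) (insY i (y, r)) - G s i a (insY i (y, r))‖ ^ 2)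
          (fun _ _ => sq_nonneg _) (Finset.mem_univ a)).trans
          (le_add_of_nonneg_left (sq_nonneg _))))) hy
  refine ⟨hF, hD, (hF.locallyIntegrable one_le_two).locallyIntegrableOn _,
    fun a => ((hD a).locallyIntegrable one_le_two).locallyIntegrableOn _, fun η hη a => ?_⟩
  have l1 := tendsto_integral_mul (fun j => (hj j).memLp) hF
    ((hη.deriv a).continuous.memLp_of_hasCompactSupport (hη.deriv a).compact) lf
  have l2 := tendsto_integral_mul (fun j => (hj j).grad_memLp a) (hD a)
    (hη.continuous.memLp_of_hasCompactSupport hη.compact) (lg a)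
  exact tendsto_nhds_unique l1 (l2.neg.congr fun j => ((hj j).weak.2.2 η hη a).symm)

/-- Squares converge in the mean. -/
theorem tendsto_sq {α : Type*} [MeasurableSpace α] {μ : Measure α} {a : ℕ → α → ℝ} {c : α → ℝ}
    (ha : ∀ k, MemLp (a k) 2 μ) (hc : MemLp c 2 μ)
    (h : Tendsto (fun k => ∫ x, (a k x - c x) ^ 2 ∂μ) atTop (𝓝 0)) :
    Tendsto (fun k => ∫ x, a k x ^ 2 ∂μ) atTop (𝓝 (∫ x, c x ^ 2 ∂μ)) := by
  have l : Tendsto (fun k => ∫ x, (a k x - c x) * c x ∂μ) atTop (𝓝 0) := by
    refine squeeze_zero_norm (fun k => abs_integral_mul_le ((ha k).sub hc) hc) ?_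
    have := h.sqrt.mul_const (Real.sqrt (∫ x, c x ^ 2 ∂μ))
    rwa [Real.sqrt_zero, zero_mul] at this
  have := ((l.const_mul 2).add h).add_const (∫ x, c x ^ 2 ∂μ)
  rw [mul_zero, zero_add, zero_add] at this
  refine this.congr fun k => ?_
  have i1 : Integrable (fun x => 2 * ((a k x - c x) * c x)) μ :=
    (((ha k).sub hc).integrable_mul hc).const_mul 2
  have i2 : Integrable (fun x => (a k x - c x) ^ 2) μ := ((ha k).sub hc).integrable_sq
  rw [← integral_const_mul, ← integral_add i1 i2,
    ← integral_add (f := fun x => 2 * ((a k x - c x) * c x) + (a k x - c x) ^ 2) (i1.add i2)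
      hc.integrable_sq]
  exact integral_congr_ae (.of_forall fun x => by ring)

/-- The orbitals of a ground state of three electrons. -/
structure Electrons (hv : Bounded v) (Φ : Spins 3 → Cfg 3 → ℂ) (E : ℝ) (S : Slot → Family (Cfg 2)) :
    Prop where
  value : ∀ p y r, (S p).F y r = part p.2.2 (Φ p.2.1 (insY p.1 (y, r)))
  mass : ∑ p, ∫ y, ip ((S p).u y) ((S p).u y) = 3
  energy : ∑ p, ∫ y, form hv 0 ((S p).u y) ((S p).u y) = E
  pauli : ∀ σ (w : h1),
    ∑ p, (if p.spin = σ then ∫ y, ip ((S p).u y) w ^ 2 else 0) ≤ ip w w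

theorem exists_electrons (hv : Bounded v) (h : GroundH1 (oneBody v) Φ E G) :
    ∃ S, Electrons hv Φ E S := by
  choose S hSF hSD using exists_family h
  have hval : ∀ p y r, (S p).F y r = part p.2.2 (Φ p.2.1 (insY p.1 (y, r))) := fun p y r => by
    rw [hSF]
  have hn2 : ∀ (s : Spins 3) (b : Bool), Integrable fun x => part b (Φ s x) ^ 2 := fun s b =>
    (memLp_part b (h.hasGrad s).memLp).integrable_sq
  refine ⟨S, hval, ?_, ?_, ?_⟩
  · have e : ∀ p, ∫ y, ip ((S p).u y) ((S p).u y) = ∫ x, part p.2.2 (Φ p.2.1 x) ^ 2 := fun p => by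
      rw [(S p).integral_ip.2, ← integral_insY p.1 fun x => part p.2.2 (Φ p.2.1 x) ^ 2]
      simp only [hval]
    simp only [e, Fintype.sum_prod_type]
    simp only [← integral_finsetSum Finset.univ fun b _ => hn2 _ b, part_sq_sum]
    rw [show ∑ s, ∫ x, ‖Φ s x‖ ^ 2 = 1 from h.norm_one]
    simp
  · have hpi : ∀ (i : Fin 3) s, Integrable (fun x => v (x i) * ‖Φ s x‖ ^ 2) := by
      intro i s
      rw [← (mp_insY i).integrable_comp_emb (embedding_insY i)]
      refine ((integrable_finsetSum Finset.univ fun b _ => (S (i, s, b)).pot hv)).congr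
        (.of_forall fun z => ?_)
      simp only [hval, ← Finset.mul_sum, part_sq_sum, Function.comp_apply]
      simp [insY]
    have hki : ∀ (i : Fin 3) s, Integrable (fun x => (1 / 2 : ℝ) * ∑ a, ‖G s i a x‖ ^ 2) :=
      fun i s => (integrable_finsetSum _ fun a _ =>
        ((h.hasGrad s).memLp_grad i a).integrable_norm_pow two_ne_zero).const_mul _
    have e : ∀ i s, ∑ b, ∫ y, form hv 0 ((S (i, s, b)).u y) ((S (i, s, b)).u y) =
        ∫ x, ((1 / 2 : ℝ) * ∑ a, ‖G s i a x‖ ^ 2 + v (x i) * ‖Φ s x‖ ^ 2) := by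
      intro i s
      simp only [((S _).integral_form hv 0).2]
      rw [← integral_finsetSum _ fun b _ => ?_, ← integral_insY i fun x =>
        (1 / 2 : ℝ) * ∑ a, ‖G s i a x‖ ^ 2 + v (x i) * ‖Φ s x‖ ^ 2]
      · refine integral_congr_ae (.of_forall fun z => ?_)
        simp only [hval, hSD, ← part_sq_sum]
        simp only [insY, Fin.insertNth_apply_same, Fintype.sum_bool, Fin.sum_univ_three]
        ring
      · exact ((integrable_finsetSum _ fun a _ => ((S (i, s, b)).memD a).integrable_sq).const_mul
          _).add (((S (i, s, b)).pot hv).congr (.of_forall fun z => by simp))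
    rw [← h.energy_eq]
    simp only [Fintype.sum_prod_type, e, energyH]
    rw [Finset.sum_comm]
    refine Finset.sum_congr rfl fun s _ => ?_
    rw [← integral_finsetSum (f := fun i x => (1 / 2 : ℝ) * ∑ a, ‖G s i a x‖ ^ 2 +
      v (x i) * ‖Φ s x‖ ^ 2) _ fun i _ => (hki i s).add (hpi i s)]
    refine integral_congr_ae (.of_forall fun x => ?_)
    simp only [oneBody, Finset.sum_add_distrib, ← Finset.mul_sum, Finset.sum_mul]
  · intro σ w
    obtain ⟨φ, hφ⟩ := h.approx
    set F : ℕ → Bool → Spins 3 → Cfg 3 → ℝ := fun k b s x => part b (φ k s x) with hFdef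
    have hF2 : ∀ k b s, MemLp (F k b s) 2 := fun k b s => memLp_part b ((hφ.test k).1.memLp s)
    have hP : ∀ k b, ∑ i, ∑ s, (if s i = σ then ∫ y, coef (fn w) i (F k b s) y ^ 2 else 0) ≤
        ip w w * ∑ s, ∫ x, F k b s x ^ 2 := by
      intro k b
      rw [ip_self]
      refine pauli_test (memLp_fn w) σ (fun s => ?_) (fun s => ?_) fun p s x => ?_
      · obtain ⟨K, hK⟩ := (hφ.test k).1.lipschitz s
        exact (part b).continuous.comp hK.continuous
      · exact ((hφ.test k).1.compact s).comp_left (g := part b) (map_zero _)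
      · simp only [hFdef, (hφ.test k).1.antisymm p s x]
        rcases Int.units_eq_one_or (Equiv.Perm.sign p) with hp | hp <;> simp [hp]
    have hl : ∀ b s, Tendsto (fun k => ∫ x, (F k b s x - part b (Φ s x)) ^ 2) atTop (𝓝 0) :=
      fun b s => squeeze_zero (fun k => integral_nonneg fun x => sq_nonneg _) (fun k =>
        integral_mono_of_nonneg (.of_forall fun x => sq_nonneg _)
          ((((hφ.test k).1.memLp s).sub (h.hasGrad s).memLp).integrable_norm_pow two_ne_zero)
          (.of_forall fun x => by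
            simp only [hFdef, Pi.sub_apply, ← map_sub]; exact part_sq_le b _)) (hφ.value s)
    have hlim : ∀ b (i : Fin 3) s, Tendsto (fun k => ∫ y, coef (fn w) i (F k b s) y ^ 2) atTop
        (𝓝 (∫ y, ip ((S (i, s, b)).u y) w ^ 2)) := by
      intro b i s
      set P : Cfg 3 → ℝ := fun x => part b (Φ s x) with hPdef
      have hP2 : MemLp P 2 := memLp_part b (h.hasGrad s).memLp
      have he : (fun y => coef (fn w) i P y) =ᵐ[volume] fun y => ip ((S (i, s, b)).u y) w := by
        filter_upwards [(S (i, s, b)).ae_u] with y hy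
        rw [ip_apply, hy.1]
        exact integral_congr_ae (.of_forall fun r => by simp only [hval]; exact mul_comm _ _)
      rw [← integral_congr_ae (he.mono fun y hy => show coef (fn w) i P y ^ 2 = _ from congrArg (· ^ 2) hy)]
      refine tendsto_sq (fun k => (memLp_coef (memLp_fn w) i (hF2 k b s)).1)
        (memLp_coef (memLp_fn w) i hP2).1 ?_
      have := (hl b s).const_mul (∫ r, fn w r ^ 2)
      rw [mul_zero] at this
      refine squeeze_zero (fun k => integral_nonneg fun _ => sq_nonneg _) (fun k => ?_) this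
      refine le_of_eq_of_le (integral_congr_ae ?_)
        (memLp_coef (memLp_fn w) i ((hF2 k b s).sub hP2)).2
      have i1 := memLp_insY i (hF2 k b s)
      have i2 := memLp_insY i hP2
      filter_upwards [i1.1.prodMk_left, i1.integrable_sq.prod_right_ae, i2.1.prodMk_left,
        i2.integrable_sq.prod_right_ae] with y a1 a2 c1 c2
      have j1 := (memLp_fn w).integrable_mul ((memLp_two_iff_integrable_sq a1).2 a2)
      have j2 := (memLp_fn w).integrable_mul ((memLp_two_iff_integrable_sq c1).2 c2)
      have := integral_sub j1 j2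
      simp only [Pi.mul_apply, ← mul_sub] at this
      simp only [coef, Pi.sub_apply, this]
    have hsum := le_of_tendsto_of_tendsto'
      (tendsto_finsetSum Finset.univ fun b _ => tendsto_finsetSum Finset.univ fun i _ =>
        tendsto_finsetSum Finset.univ fun s _ =>
          show Tendsto (fun k => if s i = σ then ∫ y, coef (fn w) i (F k b s) y ^ 2 else 0) atTop
            (𝓝 (if s i = σ then ∫ y, ip ((S (i, s, b)).u y) w ^ 2 else 0)) by
          split
          · exact hlim b i s
          · exact tendsto_const_nhds)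
      (tendsto_finsetSum Finset.univ fun b _ => (tendsto_finsetSum Finset.univ fun s _ =>
        tendsto_sq (fun k => hF2 k b s) (memLp_part b (h.hasGrad s).memLp) (hl b s)).const_mul
          (ip w w))
      fun k => Finset.sum_le_sum fun b _ => hP k b
    rw [← Finset.mul_sum, Finset.sum_comm (s := (Finset.univ : Finset Bool))
      (t := (Finset.univ : Finset (Spins 3)))] at hsum
    simp only [← integral_finsetSum Finset.univ fun b _ => hn2 _ b, part_sq_sum] at hsum
    rw [show ∑ s, ∫ x, ‖Φ s x‖ ^ 2 = 1 from h.norm_one, mul_one] at hsum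
    refine le_of_eq_of_le ?_ hsum
    simp only [Fintype.sum_prod_type]
    rw [Finset.sum_comm (s := (Finset.univ : Finset Bool))]
    refine Finset.sum_congr rfl fun i _ => ?_
    rw [Finset.sum_comm]
    rfl

end Vale.Agent.P363.KS
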