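import Vale.Agent.P363.KS.Structure.Minimiser

/-!
P363: square integrable families of `H¹(ℝ³)` functions over a parameter space, their energy and
their averages against square integrable weights.
-/

noncomputable section

namespace Vale.Agent.P363.KS

open MeasureTheory Filter
open scoped BigOperators Topology ENNReal

variable {Y : Type*} [MeasureSpace Y] [SigmaFinite (volume : Measure Y)] {v : Space → ℝ}

/-- A family of `H¹` functions, square integrable together with its gradient. -/
structure Family (Y : Type*) [MeasureSpace Y] where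
  F : Y → Space → ℝ
  D : Fin 3 → Y → Space → ℝ
  mem : MemLp (fun z : Y × Space => F z.1 z.2) 2 (volume.prod volume)
  memD : ∀ a, MemLp (fun z : Y × Space => D a z.1 z.2) 2 (volume.prod volume)
  isH1 : ∀ᵐ y, IsH1 (F y) fun a => D a y

namespace Family

variable (S : Family Y)

open Classical in
/-- The member at `y`, as an element of `h1`. -/
def u (y : Y) : h1 := if h : IsH1 (S.F y) (fun a => S.D a y) then KS.mk h else 0

omit [SigmaFinite (volume : Measure Y)] in
theorem ae_u : ∀ᵐ y, fn (S.u y) = S.F y ∧ gr (S.u y) = fun a => S.D a y := by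
  filter_upwards [S.isH1] with y hy
  simp [u, dif_pos hy]

theorem memLp_sliceR {A : Y → Space → ℝ}
    (hA : MemLp (fun z : Y × Space => A z.1 z.2) 2 (volume.prod volume)) :
    ∀ᵐ r, MemLp (fun y => A y r) 2 := by
  have hm : ∀ᵐ r, AEStronglyMeasurable fun y => A y r := hA.1.prod_swap.prodMk_left
  filter_upwards [hm, hA.integrable_sq.prod_left_ae] with r h1 h2
  exact (memLp_two_iff_integrable_sq h1).2 h2

/-- Averages against a square integrable weight are square integrable and pair by Fubini. -/
theorem average {A : Y → Space → ℝ}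
    (hA : MemLp (fun z : Y × Space => A z.1 z.2) 2 (volume.prod volume)) {h : Y → ℝ}
    (hh : MemLp h 2) :
    MemLp (fun r => ∫ y, h y * A y r) 2 ∧ ∀ B : Space → ℝ, MemLp B 2 →
      ∫ r, (∫ y, h y * A y r) * B r = ∫ y, h y * ∫ r, A y r * B r := by
  have hm : AEStronglyMeasurable (fun r => ∫ y, h y * A y r) :=
    ((hh.1.comp_fst).mul hA.1).prod_swap.integral_prod_right'
  refine ⟨(memLp_two_iff_integrable_sq hm).2
    ((hA.integrable_sq.integral_prod_right.const_mul (∫ y, h y ^ 2)).mono' (hm.pow 2) ?_),
    fun B hB => ?_⟩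
  · filter_upwards [memLp_sliceR hA] with r hr
    rw [Real.norm_of_nonneg (sq_nonneg _), ← sq_abs]
    calc |∫ y, h y * A y r| ^ 2
        ≤ (Real.sqrt (∫ y, h y ^ 2) * Real.sqrt (∫ y, A y r ^ 2)) ^ 2 :=
          pow_le_pow_left₀ (abs_nonneg _) (abs_integral_mul_le hh hr) 2
      _ = (∫ y, h y ^ 2) * ∫ y, A y r ^ 2 := by
          rw [mul_pow, Real.sq_sqrt (integral_nonneg fun _ => sq_nonneg _),
            Real.sq_sqrt (integral_nonneg fun _ => sq_nonneg _)]
  · have hp : MemLp (fun z : Y × Space => h z.1 * B z.2) 2 (volume.prod volume) :=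
      (memLp_two_iff_integrable_sq (hh.1.comp_fst.mul hB.1.comp_snd)).2
        ((hh.integrable_sq.mul_prod hB.integrable_sq).congr (.of_forall fun z => (mul_pow _ _ _).symm))
    have hK : Integrable (fun z : Y × Space => h z.1 * (A z.1 z.2 * B z.2))
        (volume.prod volume) :=
      (hA.integrable_mul hp).congr (.of_forall fun z => mul_left_comm _ _ _)
    simp only [← integral_mul_const, ← integral_const_mul]
    rw [integral_integral_swap (f := fun r y => h y * A y r * B r)
      (hK.swap.congr (.of_forall fun z => (mul_assoc _ _ _).symm))]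
    simp only [mul_assoc]

omit [SigmaFinite (volume : Measure Y)] in
theorem aesm_pot (hv : Bounded v) :
    AEStronglyMeasurable (fun z : Y × Space => v z.2) (volume.prod volume) :=
  hv.1.aestronglyMeasurable.comp_snd

omit [SigmaFinite (volume : Measure Y)] in
/-- The potential is integrable against the square of the family. -/
theorem pot (hv : Bounded v) :
    Integrable (fun z : Y × Space => v z.2 * S.F z.1 z.2 ^ 2) (volume.prod volume) := by
  obtain ⟨C, -, hb⟩ := hv.2 1 one_pos
  have hm : AEStronglyMeasurable (fun z : Y × Space => v z.2 * S.F z.1 z.2 ^ 2)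
      (volume.prod volume) := (aesm_pot hv).mul (S.mem.1.pow 2)
  refine (integrable_prod_iff hm).2 ⟨?_, ?_⟩
  · filter_upwards [S.ae_u] with y hy
    rw [← hy.1]; exact (hb _).1
  · refine ((integrable_finsetSum Finset.univ fun a _ =>
      (S.memD a).integrable_sq.integral_prod_left).add
      (S.mem.integrable_sq.integral_prod_left.const_mul C)).mono' hm.norm.integral_prod_right' ?_
    filter_upwards [S.ae_u] with y hy
    have := (hb (S.u y)).2
    rw [one_mul, ip_self, dirichlet, hy.1, hy.2] at this
    rw [Real.norm_of_nonneg (integral_nonneg fun _ => norm_nonneg _)]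
    simpa [Real.norm_eq_abs, abs_mul] using this

theorem integral_ip : Integrable (fun y => ip (S.u y) (S.u y)) ∧
    ∫ y, ip (S.u y) (S.u y) = ∫ z, S.F z.1 z.2 ^ 2 ∂(volume.prod volume) := by
  have he : (fun y => ∫ r, S.F y r ^ 2) =ᵐ[volume] fun y => ip (S.u y) (S.u y) := by
    filter_upwards [S.ae_u] with y hy
    rw [ip_self, hy.1]
  refine ⟨S.mem.integrable_sq.integral_prod_left.congr he, ?_⟩
  rw [← integral_congr_ae he, integral_prod _ S.mem.integrable_sq]

theorem integral_form (hv : Bounded v) (e : ℝ) :
    Integrable (fun y => form hv e (S.u y) (S.u y)) ∧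
    ∫ y, form hv e (S.u y) (S.u y) = ∫ z, ((1 / 2 : ℝ) * ∑ a, S.D a z.1 z.2 ^ 2 +
      (v z.2 - e) * S.F z.1 z.2 ^ 2) ∂(volume.prod volume) := by
  have hK : Integrable (fun z : Y × Space => (1 / 2 : ℝ) * ∑ a, S.D a z.1 z.2 ^ 2 +
      (v z.2 - e) * S.F z.1 z.2 ^ 2) (volume.prod volume) :=
    ((integrable_finsetSum _ fun a _ => (S.memD a).integrable_sq).const_mul _).add
      (((S.pot hv).sub (S.mem.integrable_sq.const_mul e)).congr
        (.of_forall fun z => by simp only [Pi.sub_apply]; ring))
  have he : (fun y => ∫ r, ((1 / 2 : ℝ) * ∑ a, S.D a y r ^ 2 + (v r - e) * S.F y r ^ 2))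
      =ᵐ[volume] fun y => form hv e (S.u y) (S.u y) := by
    filter_upwards [S.ae_u] with y hy
    rw [form_apply, Top.bil, hy.1, hy.2]
    simp only [mul_assoc, ← sq]
  refine ⟨hK.integral_prod_left.congr he, ?_⟩
  rw [← integral_congr_ae he, integral_prod _ hK]

theorem memLp_coef (w : h1) : MemLp (fun y => ip (S.u y) w) 2 := by
  have hm : AEStronglyMeasurable (fun y => ip (S.u y) w) := by
    refine ((S.mem.1.mul (memLp_fn w).1.comp_snd).integral_prod_right').congr ?_
    filter_upwards [S.ae_u] with y hy
    simp [ip_apply, hy.1]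
  refine (memLp_two_iff_integrable_sq hm).2
    ((S.integral_ip.1.mul_const (ip w w)).mono' (hm.pow 2) (.of_forall fun y => ?_))
  rw [Real.norm_of_nonneg (sq_nonneg _), ← sq_abs]
  have hb := abs_integral_mul_le (memLp_fn (S.u y)) (memLp_fn w)
  rw [← ip_apply, ← ip_self, ← ip_self] at hb
  refine (pow_le_pow_left₀ (abs_nonneg _) hb 2).trans_eq ?_
  rw [mul_pow, Real.sq_sqrt (ip_self_nonneg _), Real.sq_sqrt (ip_self_nonneg _)]

/-- The average of the family as an element of `h1`. -/
theorem exists_avg (hv : Bounded v) {h : Y → ℝ} (hh : MemLp h 2) : ∃ f : h1,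
    (∀ r, fn f r = ∫ y, h y * S.F y r) ∧ ∀ w, ip f w = ∫ y, h y * ip (S.u y) w ∧
      ∀ e, form hv e f w = ∫ y, h y * form hv e (S.u y) w := by
  have hF := average S.mem hh
  have hD := fun a => average (S.memD a) hh
  have hip : ∀ B : Space → ℝ, MemLp B 2 → ∫ r, (∫ y, h y * S.F y r) * B r =
      ∫ y, h y * ∫ r, fn (S.u y) r * B r := fun B hB => by
    rw [hF.2 B hB]
    refine integral_congr_ae ?_
    filter_upwards [S.ae_u] with y hy
    rw [hy.1]
  have hw : HasWeakGrad Set.univ (fun r => ∫ y, h y * S.F y r)
      (fun a r => ∫ y, h y * S.D a y r) := by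
    refine ⟨(hF.1.locallyIntegrable one_le_two).locallyIntegrableOn _,
      fun a => ((hD a).1.locallyIntegrable one_le_two).locallyIntegrableOn _, fun η hη a => ?_⟩
    rw [hF.2 _ ((hη.deriv a).continuous.memLp_of_hasCompactSupport (hη.deriv a).compact),
      (hD a).2 _ (hη.continuous.memLp_of_hasCompactSupport hη.compact), ← integral_neg]
    refine integral_congr_ae ?_
    filter_upwards [S.isH1] with y hy
    rw [hy.weak.2.2 η hη a, mul_neg]
  refine ⟨KS.mk ⟨hF.1, fun a => (hD a).1, hw⟩, fun r => rfl, fun w => ⟨hip _ (memLp_fn w), fun e => ?_⟩⟩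
  -- the form
  obtain ⟨C, -, hb⟩ := hv.2 1 one_pos
  have iP : Integrable (fun z : Y × Space => h z.1 * (v z.2 * S.F z.1 z.2 * fn w z.2))
      (volume.prod volume) := by
    refine ((S.pot hv).norm.add ((hh.integrable_sq.mul_prod (hb w).1.norm))).mono'
      (hh.1.comp_fst.mul (((aesm_pot hv).mul S.mem.1).mul (memLp_fn w).1.comp_snd))
      (.of_forall fun z => ?_)
    simp only [Pi.add_apply, Real.norm_eq_abs, abs_mul, abs_pow, sq_abs]
    have := two_mul_le_add_sq |S.F z.1 z.2| (|h z.1| * |fn w z.2|)
    rw [sq_abs, mul_pow, sq_abs, sq_abs] at this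
    nlinarith [mul_le_mul_of_nonneg_left this (abs_nonneg (v z.2)), abs_nonneg (v z.2),
      mul_nonneg (mul_nonneg (abs_nonneg (h z.1)) (abs_nonneg (S.F z.1 z.2)))
        (mul_nonneg (abs_nonneg (v z.2)) (abs_nonneg (fn w z.2)))]
  have hpair : ∀ {A : Y → Space → ℝ},
      MemLp (fun z : Y × Space => A z.1 z.2) 2 (volume.prod volume) → ∀ {B : Space → ℝ}, MemLp B 2 →
      Integrable (fun z : Y × Space => h z.1 * (A z.1 z.2 * B z.2)) (volume.prod volume) := by
    intro A hA B hB
    have hp : MemLp (fun z : Y × Space => h z.1 * B z.2) 2 (volume.prod volume) :=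
      (memLp_two_iff_integrable_sq (hh.1.comp_fst.mul hB.1.comp_snd)).2
        ((hh.integrable_sq.mul_prod hB.integrable_sq).congr (.of_forall fun z => (mul_pow _ _ _).symm))
    exact (hA.integrable_mul hp).congr (.of_forall fun z => mul_left_comm _ _ _)
  have i1 := fun a => hpair (S.memD a) (memLp_gr w a)
  have i2 := hpair S.mem (memLp_fn w)
  have hK : Integrable (fun z : Y × Space => h z.1 * ((1 / 2 : ℝ) *
      ∑ a, S.D a z.1 z.2 * gr w a z.2 + (v z.2 - e) * S.F z.1 z.2 * fn w z.2))
      (volume.prod volume) := by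
    refine (((integrable_finsetSum Finset.univ fun a _ => i1 a).const_mul (1 / 2 : ℝ)).add
      (iP.sub (i2.const_mul e))).congr (.of_forall fun z => ?_)
    simp only [Pi.add_apply, Pi.sub_apply, Fin.sum_univ_three]
    ring
  rw [form_apply, Top.bil]
  calc _ = ∫ r, ∫ y, h y * ((1 / 2 : ℝ) * ∑ a, S.D a y r * gr w a r +
        (v r - e) * S.F y r * fn w r) := by
        refine integral_congr_ae ?_
        filter_upwards [ae_all_iff.2 fun a => (i1 a).prod_left_ae, iP.prod_left_ae,
          i2.prod_left_ae, ae_all_iff.2 fun a => memLp_sliceR (S.memD a), memLp_sliceR S.mem]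
          with r j1 jP j2 kD kF
        simp only [fn_mk, gr_mk]
        have eD : ∀ a, Integrable fun y => h y * S.D a y r := fun a => hh.integrable_mul (kD a)
        have eF : Integrable fun y => h y * S.F y r := hh.integrable_mul kF
        simp only [← integral_mul_const, ← integral_const_mul]
        rw [← integral_finsetSum _ fun a _ => (eD a).mul_const _, ← integral_const_mul,
          ← integral_add (((integrable_finsetSum _ fun a _ => (eD a).mul_const _)).const_mul _)
            ((eF.const_mul _).mul_const _)]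
        refine integral_congr_ae (.of_forall fun y => ?_)
        simp only [Fin.sum_univ_three]
        ring
    _ = _ := by
        rw [integral_integral_swap (f := fun r y => h y * ((1 / 2 : ℝ) *
          ∑ a, S.D a y r * gr w a r + (v r - e) * S.F y r * fn w r)) hK.swap]
        refine integral_congr_ae ?_
        filter_upwards [S.ae_u] with y hy
        rw [integral_const_mul, form_apply, Top.bil, hy.1, hy.2]

end Family

end Vale.Agent.P363.KS
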