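import Vale.Agent.P363.KS.FormSpec
import Vale.Agent.P363.Tool.Sobolev.Spec
import Vale.Agent.P363.Tool.Weak.Basic
import Vale.Agent.P363.Top.CourantSpec

/-!
P363: the one-body quadratic form on `H¹(ℝ³)` as a bilinear form, with completeness.
-/

noncomputable section

namespace Vale.Agent.P363.KS

open MeasureTheory Filter
open scoped BigOperators Topology ENNReal

/-- Functions in `H¹` paired with a weak gradient. -/
def h1 : Submodule ℝ ((Space → ℝ) × (Fin 3 → Space → ℝ)) where
  carrier := {u | IsH1 u.1 u.2}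
  zero_mem' := ⟨MemLp.zero, fun _ => MemLp.zero, HasWeakGrad.zero _⟩
  add_mem' hu hw := ⟨hu.memLp.add hw.memLp, fun a => (hu.grad_memLp a).add (hw.grad_memLp a),
    hu.weak.add hw.weak⟩
  smul_mem' c _ hu := ⟨hu.memLp.const_mul c, fun a => (hu.grad_memLp a).const_mul c,
    hu.weak.const_mul c⟩

/-- The function. -/
abbrev fn (u : h1) : Space → ℝ := u.1.1

/-- Its gradient. -/
abbrev gr (u : h1) : Fin 3 → Space → ℝ := u.1.2

/-- An element of `h1`. -/
def mk {f : Space → ℝ} {F : Fin 3 → Space → ℝ} (h : IsH1 f F) : h1 := ⟨(f, F), h⟩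

@[simp] theorem fn_mk {f : Space → ℝ} {F : Fin 3 → Space → ℝ} (h : IsH1 f F) : fn (mk h) = f := rfl

@[simp] theorem gr_mk {f : Space → ℝ} {F : Fin 3 → Space → ℝ} (h : IsH1 f F) : gr (mk h) = F := rfl

theorem memLp_fn (u : h1) : MemLp (fn u) 2 := u.2.memLp

theorem memLp_gr (u : h1) (a : Fin 3) : MemLp (gr u a) 2 := u.2.grad_memLp a

theorem topH1 (u : h1) : Top.IsH1 (fn u) (gr u) := ⟨memLp_fn u, memLp_gr u, u.2.weak⟩

theorem of_topH1 {f : Space → ℝ} {F : Fin 3 → Space → ℝ} (h : Top.IsH1 f F) : IsH1 f F :=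
  ⟨h.memLp, h.memLp_grad, h.grad⟩

theorem integrable_mul (u w : h1) : Integrable fun x => fn u x * fn w x :=
  (memLp_fn u).integrable_mul (memLp_fn w)

/-- The inner product in `L²`. -/
def ip : h1 →ₗ[ℝ] h1 →ₗ[ℝ] ℝ :=
  LinearMap.mk₂ ℝ (fun u w => ∫ x, fn u x * fn w x)
    (fun u u' w => by
      rw [← integral_add (integrable_mul u w) (integrable_mul u' w)]
      exact integral_congr_ae (.of_forall fun x => add_mul _ _ _))
    (fun c u w => by
      rw [smul_eq_mul, ← integral_const_mul]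
      exact integral_congr_ae (.of_forall fun x => mul_assoc _ _ _))
    (fun u w w' => by
      rw [← integral_add (integrable_mul u w) (integrable_mul u w')]
      exact integral_congr_ae (.of_forall fun x => mul_add _ _ _))
    fun c u w => by
      rw [smul_eq_mul, ← integral_const_mul]
      exact integral_congr_ae (.of_forall fun x => mul_left_comm _ c _)

theorem ip_apply (u w : h1) : ip u w = ∫ x, fn u x * fn w x := rfl

theorem ip_comm (u w : h1) : ip u w = ip w u :=
  integral_congr_ae (.of_forall fun _ => mul_comm _ _)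

theorem ip_self (u : h1) : ip u u = ∫ x, fn u x ^ 2 :=
  integral_congr_ae (.of_forall fun _ => (sq _).symm)

theorem ip_self_nonneg (u : h1) : 0 ≤ ip u u := by
  rw [ip_self]; exact integral_nonneg fun x => sq_nonneg _

theorem ip_self_eq_zero {u : h1} (h : ip u u = 0) : fn u =ᵐ[volume] 0 := by
  rw [ip_self] at h
  have := (integral_eq_zero_iff_of_nonneg (fun x => sq_nonneg (fn u x))
    (memLp_fn u).integrable_sq).1 h
  filter_upwards [this] with x hx
  simpa using hx

/-- `v` is infinitesimally form bounded on `H¹`. -/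
def Bounded (v : Space → ℝ) : Prop :=
  LocallyIntegrable v ∧ ∀ ε : ℝ, 0 < ε → ∃ C : ℝ, 0 ≤ C ∧ ∀ u : h1,
    Integrable (fun x => v x * fn u x ^ 2) ∧
    ∫ x, |v x| * fn u x ^ 2 ≤ ε * dirichlet (gr u) + C * ip u u

theorem locallyIntegrable_inV {v : Space → ℝ} (hv : InV v) : LocallyIntegrable v := by
  obtain ⟨v₁, v₂, h₁, h₂, rfl⟩ := hv
  exact (h₁.locallyIntegrable (ENNReal.le_div_iff_mul_le (by simp) (by simp) |>.2 (by norm_num))).add
    (h₂.locallyIntegrable le_top)

theorem bounded_of_inV (hW : FormSpec.WeakBoundStmt) {v : Space → ℝ} (hv : InV v) : Bounded v := by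
  refine ⟨locallyIntegrable_inV hv, fun ε hε => ?_⟩
  obtain ⟨C, hC, hb⟩ := hW v hv ε hε
  refine ⟨C, hC, fun u => ?_⟩
  rw [ip_self]
  exact hb _ _ (memLp_fn u) (memLp_gr u) u.2.weak

variable {v : Space → ℝ}

theorem integrable_pot_mul (hv : Bounded v) (u w : h1) :
    Integrable fun x => v x * fn u x * fn w x := by
  obtain ⟨C, -, hb⟩ := hv.2 1 one_pos
  have hsum := (((hb (u + w)).1.sub (hb u).1).sub (hb w).1).div_const 2
  refine hsum.congr (.of_forall fun x => ?_)
  simp only [Pi.sub_apply]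
  show (v x * (fn u x + fn w x) ^ 2 - v x * fn u x ^ 2 - v x * fn w x ^ 2) / 2 = _
  ring

theorem integrable_bil (hv : Bounded v) (e : ℝ) (u w : h1) :
    Integrable fun x => (1 / 2 : ℝ) * ∑ a, gr u a x * gr w a x + (v x - e) * fn u x * fn w x := by
  refine ((integrable_finsetSum _ fun a _ => (memLp_gr u a).integrable_mul (memLp_gr w a)).const_mul
    _).add (((integrable_pot_mul hv u w).sub ((integrable_mul u w).const_mul e)).congr
      (.of_forall fun x => ?_))
  simp only [Pi.sub_apply]; ring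

/-- The form of `-Δ/2 + v - e`. -/
def form (hv : Bounded v) (e : ℝ) : h1 →ₗ[ℝ] h1 →ₗ[ℝ] ℝ :=
  LinearMap.mk₂ ℝ (fun u w => Top.bil v e (fn u) (gr u) (fn w) (gr w))
    (fun u u' w => by
      simp only [Top.bil]
      rw [← integral_add (integrable_bil hv e u w) (integrable_bil hv e u' w)]
      refine integral_congr_ae (.of_forall fun x => ?_)
      show (1 / 2 : ℝ) * ∑ a, (gr u a x + gr u' a x) * gr w a x +
        (v x - e) * (fn u x + fn u' x) * fn w x = _
      simp only [add_mul, Finset.sum_add_distrib]; ring)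
    (fun c u w => by
      simp only [Top.bil, smul_eq_mul]
      rw [← integral_const_mul]
      refine integral_congr_ae (.of_forall fun x => ?_)
      show (1 / 2 : ℝ) * ∑ a, (c * gr u a x) * gr w a x + (v x - e) * (c * fn u x) * fn w x = _
      simp only [mul_assoc, ← Finset.mul_sum]; ring)
    (fun u w w' => by
      simp only [Top.bil]
      rw [← integral_add (integrable_bil hv e u w) (integrable_bil hv e u w')]
      refine integral_congr_ae (.of_forall fun x => ?_)
      show (1 / 2 : ℝ) * ∑ a, gr u a x * (gr w a x + gr w' a x) +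
        (v x - e) * fn u x * (fn w x + fn w' x) = _
      simp only [mul_add, Finset.sum_add_distrib]; ring)
    fun c u w => by
      simp only [Top.bil, smul_eq_mul]
      rw [← integral_const_mul]
      refine integral_congr_ae (.of_forall fun x => ?_)
      show (1 / 2 : ℝ) * ∑ a, gr u a x * (c * gr w a x) + (v x - e) * fn u x * (c * fn w x) = _
      simp only [mul_left_comm _ c, ← Finset.mul_sum]; ring

theorem form_apply (hv : Bounded v) (e : ℝ) (u w : h1) :
    form hv e u w = Top.bil v e (fn u) (gr u) (fn w) (gr w) := rfl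

theorem form_comm (hv : Bounded v) (e : ℝ) (u w : h1) : form hv e u w = form hv e w u :=
  integral_congr_ae (.of_forall fun x => by
    simp only [mul_comm (gr u _ x), mul_assoc, mul_comm (fn u x)])

theorem form_shift (hv : Bounded v) (e e' : ℝ) (u w : h1) :
    form hv e' u w = form hv e u w + (e - e') * ip u w := by
  rw [form_apply, form_apply, ip_apply, Top.bil, Top.bil, ← integral_const_mul,
    ← integral_add (integrable_bil hv e u w) ((integrable_mul u w).const_mul _)]
  exact integral_congr_ae (.of_forall fun x => by ring)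

theorem dirichlet_nonneg (g : Fin 3 → Space → ℝ) : 0 ≤ dirichlet g :=
  Finset.sum_nonneg fun _ _ => integral_nonneg fun _ => sq_nonneg _

theorem form_zero_eq (hv : Bounded v) (u : h1) :
    form hv 0 u u = dirichlet (gr u) / 2 + ∫ x, v x * fn u x ^ 2 := by
  obtain ⟨C, -, hb⟩ := hv.2 1 one_pos
  rw [form_apply, Top.bil, dirichlet, one_div,
    ← integral_finsetSum _ fun a _ => (memLp_gr u a).integrable_sq, div_eq_inv_mul,
    ← integral_const_mul,
    ← integral_add ((integrable_finsetSum _ fun a _ => (memLp_gr u a).integrable_sq).const_mul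
      (2 : ℝ)⁻¹) (hb u).1]
  refine integral_congr_ae (.of_forall fun x => ?_)
  simp only [sub_zero, ← sq, mul_assoc]

/-- The form dominates the Dirichlet integral and is dominated by the `H¹` norm. -/
theorem form_bounds (hv : Bounded v) (e : ℝ) : ∃ C : ℝ, 0 ≤ C ∧ ∀ u : h1,
    dirichlet (gr u) ≤ 4 * form hv e u u + C * ip u u ∧
    |form hv e u u| ≤ C * (dirichlet (gr u) + ip u u) := by
  obtain ⟨C₀, hC₀, hb⟩ := hv.2 (1 / 4) (by norm_num)
  refine ⟨4 * C₀ + 4 * |e| + 1, by positivity, fun u => ?_⟩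
  have hvb := (hb u).2
  have habs : |∫ x, v x * fn u x ^ 2| ≤ ∫ x, |v x| * fn u x ^ 2 := by
    refine abs_integral_le_integral_abs.trans_eq (integral_congr_ae (.of_forall fun x => ?_))
    simp [abs_mul]
  have h0 := form_shift hv 0 e u u
  rw [form_zero_eq] at h0
  have hi := ip_self_nonneg u
  have hd := dirichlet_nonneg (gr u)
  have he := abs_le.1 ((abs_mul e (ip u u)).trans_le
    (le_of_eq (by rw [abs_of_nonneg hi]) : |e| * |ip u u| ≤ |e| * ip u u))
  obtain ⟨h1, h2⟩ := abs_le.1 habs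
  have hCd : dirichlet (gr u) ≤ (4 * C₀ + 4 * |e| + 1) * dirichlet (gr u) :=
    le_mul_of_one_le_left hd (by nlinarith [abs_nonneg e])
  refine ⟨by nlinarith, abs_le.2 ⟨?_, ?_⟩⟩ <;> nlinarith [abs_nonneg e, mul_nonneg hC₀ hi]

/-- Cauchy sequences in mean square have limits. -/
theorem exists_limit_L2 {f : ℕ → Space → ℝ} (hf : ∀ k, MemLp (f k) 2)
    (hc : ∀ ε > (0 : ℝ), ∃ N, ∀ k ≥ N, ∀ m ≥ N, ∫ x, (f k x - f m x) ^ 2 ≤ ε) :
    ∃ g, MemLp g 2 ∧ Tendsto (fun k => ∫ x, (f k x - g x) ^ 2) atTop (𝓝 0) := by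
  have hsq : ∀ k m, ‖(hf k).toLp (f k) - (hf m).toLp (f m)‖ ^ 2 = ∫ x, (f k x - f m x) ^ 2 := by
    intro k m
    rw [← MemLp.toLp_sub, ← real_inner_self_eq_norm_sq, L2.inner_def]
    refine integral_congr_ae ?_
    filter_upwards [((hf k).sub (hf m)).coeFn_toLp] with x hx
    rw [hx, real_inner_self_eq_norm_sq, Real.norm_eq_abs, sq_abs, Pi.sub_apply]
  have hcs : CauchySeq fun k => (hf k).toLp (f k) := by
    refine Metric.cauchySeq_iff.2 fun ε hε => ?_
    obtain ⟨N, hN⟩ := hc ((ε / 2) ^ 2) (by positivity)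
    refine ⟨N, fun k hk m hm => ?_⟩
    have := hN k hk m hm
    rw [← hsq, pow_le_pow_iff_left₀ (norm_nonneg _) (by positivity) two_ne_zero] at this
    rw [dist_eq_norm]
    linarith
  obtain ⟨g, hg⟩ := cauchySeq_tendsto_of_complete hcs
  refine ⟨g, Lp.memLp g, ?_⟩
  have := ((tendsto_iff_norm_sub_tendsto_zero.1 hg).pow 2)
  simp only [zero_pow two_ne_zero] at this
  refine this.congr fun k => ?_
  rw [← real_inner_self_eq_norm_sq, L2.inner_def]
  refine integral_congr_ae ?_
  filter_upwards [(hf k).coeFn_toLp, Lp.coeFn_sub ((hf k).toLp (f k)) g] with x hx hx'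
  rw [hx', Pi.sub_apply, hx, real_inner_self_eq_norm_sq, Real.norm_eq_abs, sq_abs]

/-- The inequality of Cauchy and Schwarz. -/
theorem abs_integral_mul_le {α : Type*} [MeasurableSpace α] {μ : Measure α} {f g : α → ℝ}
    (hf : MemLp f 2 μ) (hg : MemLp g 2 μ) :
    |∫ x, f x * g x ∂μ| ≤ Real.sqrt (∫ x, f x ^ 2 ∂μ) * Real.sqrt (∫ x, g x ^ 2 ∂μ) := by
  have hn : ∀ {p : α → ℝ} (hp : MemLp p 2 μ),
      ‖hp.toLp p‖ = Real.sqrt (∫ x, p x ^ 2 ∂μ) := by
    intro p hp
    rw [← Real.sqrt_sq (norm_nonneg (hp.toLp p)), ← real_inner_self_eq_norm_sq, L2.inner_def]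
    refine congrArg _ (integral_congr_ae ?_)
    filter_upwards [hp.coeFn_toLp] with x hx
    rw [hx, real_inner_self_eq_norm_sq, Real.norm_eq_abs, sq_abs]
  have := abs_real_inner_le_norm (hf.toLp f) (hg.toLp g)
  rw [hn hf, hn hg, L2.inner_def] at this
  refine le_trans (le_of_eq (congrArg _ (integral_congr_ae ?_))) this
  filter_upwards [hf.coeFn_toLp, hg.coeFn_toLp] with x hx hx'
  rw [hx, hx']
  simp [mul_comm]

/-- Integration against a square integrable function is continuous in mean square. -/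
theorem tendsto_integral_mul {f : ℕ → Space → ℝ} {g p : Space → ℝ} (hf : ∀ k, MemLp (f k) 2)
    (hg : MemLp g 2) (hp : MemLp p 2)
    (h : Tendsto (fun k => ∫ x, (f k x - g x) ^ 2) atTop (𝓝 0)) :
    Tendsto (fun k => ∫ x, f k x * p x) atTop (𝓝 (∫ x, g x * p x)) := by
  have key : ∀ k, ‖(∫ x, f k x * p x) - ∫ x, g x * p x‖ ≤
      Real.sqrt (∫ x, (f k x - g x) ^ 2) * Real.sqrt (∫ x, p x ^ 2) := by
    intro k
    have e := integral_sub ((hf k).integrable_mul hp) (hg.integrable_mul hp)
    simp only [Pi.mul_apply, ← sub_mul] at e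
    rw [← e, Real.norm_eq_abs]
    exact abs_integral_mul_le ((hf k).sub hg) hp
  refine tendsto_iff_norm_sub_tendsto_zero.2 (squeeze_zero (fun k => norm_nonneg _) key ?_)
  simpa using (h.sqrt).mul_const (Real.sqrt (∫ x, p x ^ 2))

/-- Completeness of `h1`. -/
theorem exists_limit (u : ℕ → h1)
    (hc : ∀ ε > (0 : ℝ), ∃ N, ∀ k ≥ N, ∀ m ≥ N,
      ip (u k - u m) (u k - u m) + dirichlet (gr (u k - u m)) ≤ ε) :
    ∃ w : h1, Tendsto (fun k => ip (u k - w) (u k - w) + dirichlet (gr (u k - w))) atTop (𝓝 0) := by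
  have hgle : ∀ a k m, ∫ x, (gr (u k) a x - gr (u m) a x) ^ 2 ≤
      dirichlet (gr (u k - u m)) := fun a k m =>
    Finset.single_le_sum (f := fun b => ∫ x, gr (u k - u m) b x ^ 2)
      (fun b _ => integral_nonneg fun x => sq_nonneg _) (Finset.mem_univ a)
  obtain ⟨f, hf, hfl⟩ := exists_limit_L2 (fun k => memLp_fn (u k)) fun ε hε => by
    obtain ⟨N, hN⟩ := hc ε hε
    refine ⟨N, fun k hk m hm => ?_⟩
    have := hN k hk m hm
    rw [ip_self] at this
    exact le_trans (le_add_of_nonneg_right (dirichlet_nonneg _)) this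
  have hga : ∀ a, ∃ g, MemLp g 2 ∧
      Tendsto (fun k => ∫ x, (gr (u k) a x - g x) ^ 2) atTop (𝓝 0) := fun a =>
    exists_limit_L2 (fun k => memLp_gr (u k) a) fun ε hε => by
      obtain ⟨N, hN⟩ := hc ε hε
      exact ⟨N, fun k hk m hm => (hgle a k m).trans
        (le_trans (le_add_of_nonneg_left (ip_self_nonneg _)) (hN k hk m hm))⟩
  choose g hg hgl using hga
  have hw : HasWeakGrad Set.univ f g := by
    refine ⟨(hf.locallyIntegrable one_le_two).locallyIntegrableOn _,
      fun a => ((hg a).locallyIntegrable one_le_two).locallyIntegrableOn _, fun η hη a => ?_⟩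
    have l1 := tendsto_integral_mul (fun k => memLp_fn (u k)) hf
      ((hη.deriv a).continuous.memLp_of_hasCompactSupport (hη.deriv a).compact) hfl
    have l2 := tendsto_integral_mul (fun k => memLp_gr (u k) a) (hg a)
      (hη.continuous.memLp_of_hasCompactSupport hη.compact) (hgl a)
    exact tendsto_nhds_unique l1 (l2.neg.congr fun k => ((u k).2.weak.2.2 η hη a).symm)
  refine ⟨mk ⟨hf, hg, hw⟩, ?_⟩
  have := hfl.add (tendsto_finsetSum Finset.univ fun a _ => hgl a)
  simp only [Finset.sum_const_zero, add_zero] at this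
  refine this.congr fun k => ?_
  rw [ip_self]
  rfl

end Vale.Agent.P363.KS
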