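import Vale.Agent.P363.KS.Structure.Minimiser
import Vale.Agent.P363.Tool.Sobolev.Approx

/-!
P363: Slater determinants bound the ground energy of three electrons by twice the energy of one
orbital plus that of an orthogonal one.
-/

noncomputable section

namespace Vale.Agent.P363.KS

open MeasureTheory Filter
open scoped BigOperators Topology

/-- The signed sum over permutations of products of one-electron factors. -/
def slaterSum (U : Fin 3 → Fin 3 → Fin 2 → Space → ℝ) (s : Spins 3) (x : Cfg 3) : ℝ :=
  ∑ p : Equiv.Perm (Fin 3), ((Equiv.Perm.sign p : ℤ) : ℝ) * ∏ j, U j (p j) (s j) (x j)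

/-- Factors obtained by modifying slot `i`. -/
def modify (χ : Fin 3 → Fin 2 → Space → ℝ) (T : (Space → ℝ) → Space → ℝ) (i : Fin 3) :
    Fin 3 → Fin 3 → Fin 2 → Space → ℝ :=
  fun j l σ => if j = i then T (χ l σ) else χ l σ

/-- Factorised integrals of products of two signed sums. -/
theorem integral_slater_mul {U V : Fin 3 → Fin 3 → Fin 2 → Space → ℝ}
    (h : ∀ j l m σ, Integrable fun r => U j l σ r * V j m σ r) :
    (∀ s, Integrable fun x => slaterSum U s x * slaterSum V s x) ∧
    ∑ s, ∫ x, slaterSum U s x * slaterSum V s x =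
      ∑ p : Equiv.Perm (Fin 3), ∑ q : Equiv.Perm (Fin 3), ((Equiv.Perm.sign p : ℤ) : ℝ) *
        ((Equiv.Perm.sign q : ℤ) : ℝ) * ∏ j, ∑ σ, ∫ r, U j (p j) σ r * V j (q j) σ r := by
  have he : ∀ s x, slaterSum U s x * slaterSum V s x = ∑ p : Equiv.Perm (Fin 3),
      ∑ q : Equiv.Perm (Fin 3), ((Equiv.Perm.sign p : ℤ) : ℝ) * ((Equiv.Perm.sign q : ℤ) : ℝ) *
        ∏ j, (U j (p j) (s j) (x j) * V j (q j) (s j) (x j)) := by
    intro s x
    rw [slaterSum, slaterSum, Finset.sum_mul_sum]
    refine Finset.sum_congr rfl fun p _ => Finset.sum_congr rfl fun q _ => ?_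
    rw [Finset.prod_mul_distrib]
    ring
  have hi : ∀ (p q : Equiv.Perm (Fin 3)) (s : Spins 3), Integrable fun x : Cfg 3 =>
      ((Equiv.Perm.sign p : ℤ) : ℝ) * ((Equiv.Perm.sign q : ℤ) : ℝ) *
        ∏ j, (U j (p j) (s j) (x j) * V j (q j) (s j) (x j)) := fun p q s =>
    (Integrable.fintype_prod (μ := fun _ : Fin 3 => (volume : Measure Space))
      (f := fun j r => U j (p j) (s j) r * V j (q j) (s j) r) fun j => h j _ _ _).const_mul _
  refine ⟨fun s => by
    simp only [he]
    exact integrable_finsetSum _ fun p _ => integrable_finsetSum _ fun q _ => hi p q s, ?_⟩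
  simp only [he]
  rw [Finset.sum_congr rfl fun s _ => integral_finsetSum _ fun p _ =>
    integrable_finsetSum _ fun q _ => hi p q s, Finset.sum_comm]
  refine Finset.sum_congr rfl fun p _ => ?_
  rw [Finset.sum_congr rfl fun s _ => integral_finsetSum _ fun q _ => hi p q s, Finset.sum_comm]
  refine Finset.sum_congr rfl fun q _ => ?_
  rw [Finset.prod_sum, Finset.mul_sum]
  simp only [Finset.prod_attach_univ]
  refine Finset.sum_bij (fun s _ => fun j _ => s j) (by simp) (fun s _ s' _ e => funext fun j =>
    congrFun (congrFun e j) (Finset.mem_univ j)) (fun g _ => ⟨fun j => g j (Finset.mem_univ j),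
      Finset.mem_univ _, rfl⟩) fun s _ => ?_
  rw [integral_const_mul]
  congr 1
  exact (integral_fintype_prod_volume_eq_prod (E := fun _ : Fin 3 => Space) fun j r =>
    U j (p j) (s j) r * V j (q j) (s j) r).trans (by
      simp)

/-- Orthonormal factors in all slots but one leave one diagonal sum. -/
theorem diag_sum (K : Fin 3 → Fin 3 → Fin 3 → ℝ) (i : Fin 3)
    (h : ∀ j, j ≠ i → ∀ l m, K j l m = if l = m then 1 else 0) :
    ∑ p : Equiv.Perm (Fin 3), ∑ q : Equiv.Perm (Fin 3), ((Equiv.Perm.sign p : ℤ) : ℝ) *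
        ((Equiv.Perm.sign q : ℤ) : ℝ) * ∏ j, K j (p j) (q j) =
      ∑ p : Equiv.Perm (Fin 3), K i (p i) (p i) := by
  refine Finset.sum_congr rfl fun p _ => ?_
  rw [Finset.sum_eq_single p]
  · rw [← Int.cast_mul, ← Units.val_mul, Int.units_mul_self, Units.val_one, Int.cast_one, one_mul,
      Finset.prod_eq_single i (fun j _ hj => by rw [h j hj, if_pos rfl]) (by simp)]
  · intro q _ hqp
    obtain ⟨j, hji, hj⟩ : ∃ j, j ≠ i ∧ p j ≠ q j := by
      by_contra! hall
      refine hqp (Equiv.ext fun j => ?_)
      by_cases hji : j = i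
      · subst hji
        by_contra hne
        obtain ⟨k, hk⟩ := p.surjective (q j)
        have hkj : k ≠ j := fun e => hne (by rw [← hk, e])
        exact hkj (q.injective (by rw [← hall k hkj, hk]))
      · exact (hall j hji).symm
    rw [Finset.prod_eq_zero (Finset.mem_univ j) (by rw [h j hji, if_neg hj]), mul_zero]
  · simp

theorem sum_perm_apply (i : Fin 3) (f : Fin 3 → ℝ) :
    ∑ p : Equiv.Perm (Fin 3), f (p i) = 2 * ∑ l, f l := by
  rw [← Finset.sum_fiberwise (Finset.univ : Finset (Equiv.Perm (Fin 3))) (fun p => p i)]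
  rw [Finset.mul_sum]
  refine Finset.sum_congr rfl fun l _ => ?_
  rw [Finset.sum_congr rfl fun p hp => by rw [(Finset.mem_filter.1 hp).2], Finset.sum_const,
    nsmul_eq_mul]
  congr 1
  have : (Finset.univ.filter fun p : Equiv.Perm (Fin 3) => p i = l).card = 2 := by
    fin_cases i <;> fin_cases l <;> decide
  exact_mod_cast this

variable {v : Space → ℝ}

/-- Elements of `h1` given by bumps. -/
def bumpH1 {η : Space → ℝ} (h : IsBump Set.univ η) : h1 :=
  mk ⟨h.continuous.memLp_of_hasCompactSupport h.compact,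
    fun a => (h.deriv a).continuous.memLp_of_hasCompactSupport (h.deriv a).compact,
    HasWeakGrad.of_contDiffOn isOpen_univ (h.smooth.of_le (by exact_mod_cast le_top)).contDiffOn⟩

/-- The trial bound with smooth compactly supported orbitals. -/
theorem slater_bump (hv : Bounded v) {E : ℝ}
    (hlow : ∀ φ : Spins 3 → Cfg 3 → ℂ, IsTest φ → E * normSq φ ≤ energy (oneBody v) φ) {a b : Space → ℝ}
    (ha : IsBump Set.univ a) (hb : IsBump Set.univ b) (haa : ∫ x, a x * a x = 1)
    (hbb : ∫ x, b x * b x = 1) (hab : ∫ x, a x * b x = 0) :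
    E ≤ 2 * form hv 0 (bumpH1 ha) (bumpH1 ha) + form hv 0 (bumpH1 hb) (bumpH1 hb) := by
  have h0 : IsBump Set.univ (0 : Space → ℝ) :=
    ⟨contDiff_const, HasCompactSupport.zero, Set.subset_univ _⟩
  set χ : Fin 3 → Fin 2 → Space → ℝ := ![![a, 0], ![b, 0], ![0, a]] with hχ
  have hχb : ∀ l σ, IsBump Set.univ (χ l σ) := by
    intro l σ
    fin_cases l <;> fin_cases σ <;> simp [hχ] <;> first | exact ha | exact hb | exact h0
  set U : Fin 3 → Fin 3 → Fin 2 → Space → ℝ := fun _ l σ => χ l σ with hU
  have hψd : ∀ s, ContDiff ℝ ((⊤ : ℕ∞) : WithTop ℕ∞) (slaterSum U s) := fun s =>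
    ContDiff.sum fun p _ => contDiff_const.mul (contDiff_prod fun j _ =>
      (hχb (p j) (s j)).smooth.comp (contDiff_apply ℝ Space j))
  have hψc : ∀ s, HasCompactSupport (slaterSum U s) := by
    intro s
    refine HasCompactSupport.of_support_subset_isCompact
      (isCompact_univ_pi fun _ : Fin 3 => ha.compact.isCompact.union hb.compact.isCompact) ?_
    intro x hx j _
    by_contra hj
    have hz : ∀ l σ, χ l σ (x j) = 0 := fun l σ => by
      simp only [Set.mem_union, not_or] at hj
      fin_cases l <;> fin_cases σ <;>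
        simp [hχ, image_eq_zero_of_notMem_tsupport hj.1, image_eq_zero_of_notMem_tsupport hj.2]
    refine hx (Finset.sum_eq_zero fun p _ => ?_)
    rw [Finset.prod_eq_zero (Finset.mem_univ j) (hz _ _), mul_zero]
  set φ : Spins 3 → Cfg 3 → ℂ := fun s x => (slaterSum U s x : ℂ) with hφ
  have hT : IsTest φ := by
    refine ⟨fun s => ?_, fun s => (hψc s).comp_left (g := Complex.ofReal) Complex.ofReal_zero,
      fun p s x => ?_⟩
    · obtain ⟨K, hK⟩ := (hψd s).lipschitzWith_of_hasCompactSupport (hψc s) (by simp)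
      exact ⟨_, Complex.ofRealCLM.lipschitz.comp hK⟩
    · simp only [hφ]
      have : slaterSum U (s ∘ p) (x ∘ p) =
          ((Equiv.Perm.sign p : ℤ) : ℝ) * slaterSum U s x := by
        simp only [slaterSum, Finset.mul_sum, hU, Function.comp_apply]
        rw [← Equiv.sum_comp (Equiv.mulRight p)]
        refine Finset.sum_congr rfl fun q _ => ?_
        simp only [Equiv.coe_mulRight, Equiv.Perm.coe_mul, Function.comp_apply, map_mul,
          Units.val_mul, Int.cast_mul]
        rw [Equiv.prod_comp p (fun j => χ (q j) (s j) (x j))]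
        ring
      rw [this]
      push_cast
      rfl
  have hK : ∀ l m, ∑ σ, ∫ r, χ l σ r * χ m σ r = if l = m then 1 else 0 := by
    intro l m
    have hba : ∫ x, b x * a x = 0 := by
      rw [← hab]; exact integral_congr_ae (.of_forall fun x => mul_comm _ _)
    fin_cases l <;> fin_cases m <;> simp [hχ, Fin.sum_univ_two, haa, hbb, hab, hba]
  have hcc : ∀ l m σ, Integrable fun r => χ l σ r * χ m σ r := fun l m σ =>
    (hχb m σ).integrable_mul
      ((hχb l σ).continuous.locallyIntegrable.locallyIntegrableOn _)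
  have hn : normSq φ = 6 := by
    rw [normSq]
    simp only [hφ, Complex.norm_real, Real.norm_eq_abs, sq_abs]
    simp only [sq]
    rw [(integral_slater_mul (U := U) (V := U) fun _ l m σ => hcc l m σ).2]
    simp only [hU]
    rw [diag_sum (fun _ l m => ∑ σ, ∫ r, χ l σ r * χ m σ r) 0 (fun _ _ => hK)]
    simp [hK, Fintype.card_perm, Nat.factorial]
  -- derivatives
  have hder : ∀ i c s x, ‖fderiv ℝ (φ s) x (Pi.single i (unit3 c))‖ ^ 2 =
      slaterSum (modify χ (deriv3 c) i) s x * slaterSum (modify χ (deriv3 c) i) s x := by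
    intro i c s x
    have h1 : HasFDerivAt (φ s) (Complex.ofRealCLM.comp (fderiv ℝ (slaterSum U s) x)) x :=
      Complex.ofRealCLM.hasFDerivAt.comp x ((hψd s).differentiable (by simp) x).hasFDerivAt
    rw [h1.fderiv, ContinuousLinearMap.comp_apply, Complex.ofRealCLM_apply, Complex.norm_real,
      Real.norm_eq_abs, sq_abs, sq]
    have h2 : HasFDerivAt (slaterSum U s) (∑ p : Equiv.Perm (Fin 3),
        ((Equiv.Perm.sign p : ℤ) : ℝ) • ∑ j, (∏ k ∈ Finset.univ.erase j, χ (p k) (s k) (x k)) •
          (fderiv ℝ (χ (p j) (s j)) (x j)).comp (ContinuousLinearMap.proj j)) x := by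
      refine HasFDerivAt.fun_sum fun p _ => HasFDerivAt.const_mul ?_ _
      exact HasFDerivAt.finsetProd fun j _ =>
        ((hχb (p j) (s j)).differentiable (x j)).hasFDerivAt.comp x
          (ContinuousLinearMap.proj (R := ℝ) (φ := fun _ : Fin 3 => Space) j).hasFDerivAt
    rw [h2.fderiv]
    simp only [sum_apply, smul_apply, smul_eq_mul, ContinuousLinearMap.comp_apply,
      ContinuousLinearMap.proj_apply]
    have e : ∀ p : Equiv.Perm (Fin 3), (∑ j, (∏ k ∈ Finset.univ.erase j, χ (p k) (s k) (x k)) *
        fderiv ℝ (χ (p j) (s j)) (x j)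
          ((Pi.single i (unit3 c) : Fin 3 → Space) j)) =
        ∏ j, modify χ (deriv3 c) i j (p j) (s j) (x j) := by
      intro p
      rw [Finset.sum_eq_single i (fun j _ hj => by simp [Pi.single_eq_of_ne hj]) (by simp),
        ← Finset.mul_prod_erase _ _ (Finset.mem_univ i)]
      rw [Pi.single_eq_same, mul_comm]
      refine congrArg₂ (· * ·) (by simp [modify, deriv3]) (Finset.prod_congr rfl fun k hk => ?_)
      simp [modify, (Finset.mem_erase.1 hk).1]
    simp only [e]
    rfl
  have hpot : ∀ i s x, v (x i) * ‖φ s x‖ ^ 2 =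
      slaterSum (modify χ (fun f r => v r * f r) i) s x * slaterSum U s x := by
    intro i s x
    simp only [hφ, Complex.norm_real, Real.norm_eq_abs, sq_abs]
    rw [sq, ← mul_assoc]
    congr 1
    simp only [slaterSum]
    rw [Finset.mul_sum]
    refine Finset.sum_congr rfl fun p _ => ?_
    rw [← Finset.mul_prod_erase _ (fun j => modify χ _ i j (p j) (s j) (x j)) (Finset.mem_univ i),
      ← Finset.mul_prod_erase _ (fun j => U j (p j) (s j) (x j)) (Finset.mem_univ i)]
    simp only [modify, hU, if_true]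
    rw [mul_left_comm, mul_assoc]
    congr 3
    exact Finset.prod_congr rfl fun k hk => by rw [if_neg (Finset.mem_erase.1 hk).1]
  have hI1 : ∀ i c j l m σ, Integrable fun r => modify χ (deriv3 c) i j l σ r *
      modify χ (deriv3 c) i j m σ r := by
    intro i c j l m σ
    simp only [modify]
    split_ifs
    · exact ((hχb m σ).deriv c).integrable_mul
        (((hχb l σ).deriv c).continuous.locallyIntegrable.locallyIntegrableOn _)
    · exact hcc l m σ
  have hI2 : ∀ i j l m σ, Integrable fun r => modify χ (fun f r => v r * f r) i j l σ r *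
      U j m σ r := by
    intro i j l m σ
    simp only [modify, hU]
    split_ifs
    · refine (integrable_mul_of_tsupport (locallyIntegrableOn_univ.2 hv.1)
        ((hχb l σ).continuous.mul (hχb m σ).continuous) (hχb m σ).compact.mul_left
        (Set.subset_univ _)).congr (.of_forall fun r => ?_)
      simp only [Pi.mul_apply]; ring
    · exact hcc l m σ
  have hen : energy (oneBody v) φ = 6 * ∑ l, ∑ σ, ((1 / 2 : ℝ) *
      (∑ c, ∫ r, deriv3 c (χ l σ) r * deriv3 c (χ l σ) r) + ∫ r, v r * χ l σ r * χ l σ r) := by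
    have e1 : ∀ i c, ∑ s, ∫ x, slaterSum (modify χ (deriv3 c) i) s x *
        slaterSum (modify χ (deriv3 c) i) s x =
        2 * ∑ l, ∑ σ, ∫ r, deriv3 c (χ l σ) r * deriv3 c (χ l σ) r := by
      intro i c
      rw [(integral_slater_mul (hI1 i c)).2,
        diag_sum (fun j l m => ∑ σ, ∫ r, modify χ (deriv3 c) i j l σ r *
          modify χ (deriv3 c) i j m σ r) i (fun j hj l m => by simp [modify, hj, hK])]
      simp only [modify, if_true]
      exact sum_perm_apply i fun l => ∑ σ, ∫ r, deriv3 c (χ l σ) r * deriv3 c (χ l σ) r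
    have e2 : ∀ i, ∑ s, ∫ x, slaterSum (modify χ (fun f r => v r * f r) i) s x * slaterSum U s x =
        2 * ∑ l, ∑ σ, ∫ r, v r * χ l σ r * χ l σ r := by
      intro i
      rw [(integral_slater_mul (hI2 i)).2,
        diag_sum (fun j l m => ∑ σ, ∫ r, modify χ (fun f r => v r * f r) i j l σ r * U j m σ r) i
          (fun j hj l m => by simp [modify, hU, hj, hK])]
      simp only [modify, hU, if_true]
      exact sum_perm_apply i fun l => ∑ σ, ∫ r, v r * χ l σ r * χ l σ r
    have es : ∀ s x, (1 / 2 : ℝ) * ∑ i, gradSq i (φ s) x + oneBody v x * ‖φ s x‖ ^ 2 =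
        ∑ i, ((1 / 2 : ℝ) * (∑ c, slaterSum (modify χ (deriv3 c) i) s x *
          slaterSum (modify χ (deriv3 c) i) s x) +
          slaterSum (modify χ (fun f r => v r * f r) i) s x * slaterSum U s x) := by
      intro s x
      simp only [gradSq, ← hder, ← hpot, oneBody, Finset.sum_mul, Finset.mul_sum,
        Finset.sum_add_distrib]
      rfl
    have ek : ∀ i s, Integrable fun x => ∑ c, slaterSum (modify χ (deriv3 c) i) s x *
        slaterSum (modify χ (deriv3 c) i) s x := fun i s =>
      integrable_finsetSum _ fun c _ => (integral_slater_mul (hI1 i c)).1 s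
    have eI : ∀ s, ∫ x, ((1 / 2 : ℝ) * ∑ i, gradSq i (φ s) x + oneBody v x * ‖φ s x‖ ^ 2) =
        ∑ i, ((1 / 2 : ℝ) * (∑ c, ∫ x, slaterSum (modify χ (deriv3 c) i) s x *
          slaterSum (modify χ (deriv3 c) i) s x) +
          ∫ x, slaterSum (modify χ (fun f r => v r * f r) i) s x * slaterSum U s x) := by
      intro s
      simp only [es]
      rw [integral_finsetSum]
      · refine Finset.sum_congr rfl fun i _ => ?_
        rw [integral_add ((ek i s).const_mul _) ((integral_slater_mul (hI2 i)).1 s),
          integral_const_mul, integral_finsetSum _ fun c _ => (integral_slater_mul (hI1 i c)).1 s]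
      · exact fun i _ => ((ek i s).const_mul _).add ((integral_slater_mul (hI2 i)).1 s)
    rw [energy, Finset.sum_congr rfl fun s _ => eI s, Finset.sum_comm]
    simp only [Finset.sum_add_distrib, ← Finset.mul_sum]
    rw [Finset.sum_congr rfl fun i _ => Finset.sum_comm]
    simp only [e1, e2, Fin.sum_univ_three, Fin.sum_univ_two]
    ring
  have hq : ∀ {η : Space → ℝ} (hη : IsBump Set.univ η), form hv 0 (bumpH1 hη) (bumpH1 hη) =
      (1 / 2 : ℝ) * (∑ c, ∫ r, deriv3 c η r * deriv3 c η r) + ∫ r, v r * η r * η r := by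
    intro η hη
    rw [form_zero_eq, dirichlet]
    simp only [bumpH1, fn_mk, gr_mk, sq, mul_assoc]
    ring
  have key := hlow φ hT
  rw [hn, hen, Fin.sum_univ_three] at key
  simp only [Fin.sum_univ_two, hχ, Matrix.cons_val_zero, Matrix.cons_val_one,
    Matrix.cons_val_two, Matrix.tail_cons, Matrix.head_cons] at key
  simp only [show ∀ c r, deriv3 c (0 : Space → ℝ) r = 0 from fun c r => deriv3_const 0 c r,
    Pi.zero_apply, mul_zero, integral_zero, Finset.sum_const_zero, add_zero, zero_add] at key
  rw [hq ha, hq hb]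
  linarith

/-- Bumps approximate in the form. -/
theorem exists_bump_approx (hv : Bounded v) (u : h1) :
    ∃ η : ℕ → Space → ℝ, ∃ hη : ∀ k, IsBump Set.univ (η k),
      (∀ w, Tendsto (fun k => ip (bumpH1 (hη k)) w) atTop (𝓝 (ip u w))) ∧
      Tendsto (fun k => ip (bumpH1 (hη k)) (bumpH1 (hη k))) atTop (𝓝 (ip u u)) ∧
      Tendsto (fun k => form hv 0 (bumpH1 (hη k)) (bumpH1 (hη k))) atTop (𝓝 (form hv 0 u u)) := by
  obtain ⟨η, hη, h0, h1'⟩ := exists_bumps u.2
  refine ⟨η, hη, ?_⟩
  set d : ℕ → h1 := fun k => bumpH1 (hη k) - u with hd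
  have hd0 : Tendsto (fun k => ip (d k) (d k) + dirichlet (gr (d k))) atTop (𝓝 0) := by
    have := h0.add (tendsto_finsetSum Finset.univ fun a _ => h1' a)
    simp only [Finset.sum_const_zero, add_zero] at this
    refine this.congr fun k => ?_
    rw [ip_self]; rfl
  have hi : Tendsto (fun k => ip (d k) (d k)) atTop (𝓝 0) :=
    squeeze_zero (fun k => ip_self_nonneg _) (fun k => le_add_of_nonneg_right (dirichlet_nonneg _))
      hd0
  obtain ⟨C, -, hC⟩ := form_bounds hv (bottom hv)
  have hq : Tendsto (fun k => form hv (bottom hv) (d k) (d k)) atTop (𝓝 0) :=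
    squeeze_zero (fun k => form_bottom_nonneg hv _) (fun k => (le_abs_self _).trans (hC (d k)).2)
      (by simpa [add_comm] using hd0.const_mul C)
  have hiw : ∀ w, Tendsto (fun k => ip (d k) w) atTop (𝓝 0) := fun w => by
    refine squeeze_zero_norm (fun k => ?_) (by simpa using hi.sqrt.mul_const (Real.sqrt (ip w w)))
    rw [ip_self, ip_self, Real.norm_eq_abs, ip_apply]
    exact abs_integral_mul_le (memLp_fn _) (memLp_fn _)
  have hqu : Tendsto (fun k => form hv (bottom hv) (d k) u) atTop (𝓝 0) := by
    refine squeeze_zero_norm (fun k => ?_)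
      (by simpa using hq.sqrt.mul_const (Real.sqrt (form hv (bottom hv) u u)))
    rw [Real.norm_eq_abs]
    set q := form hv (bottom hv) with hq'
    have key : ∀ t : ℝ, 0 ≤ q u u * (t * t) + 2 * q (d k) u * t + q (d k) (d k) := fun t => by
      have := form_bottom_nonneg hv (d k + t • u)
      simp only [map_add, map_smul, LinearMap.add_apply, LinearMap.smul_apply, smul_eq_mul,
        form_comm hv (bottom hv) u (d k), hq'] at this ⊢
      linarith
    have := discrim_le_zero key
    rw [discrim] at this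
    rw [← Real.sqrt_mul (form_bottom_nonneg hv _)]
    exact Real.abs_le_sqrt (by rw [hq'] at this ⊢; linarith)
  have e : ∀ k, bumpH1 (hη k) = u + d k := fun k => (add_sub_cancel u _).symm
  have hii : Tendsto (fun k => ip (bumpH1 (hη k)) (bumpH1 (hη k))) atTop (𝓝 (ip u u)) := by
    have := ((hiw u).const_mul 2).add hi
    simp only [mul_zero, add_zero] at this
    refine ((this.const_add (ip u u)).congr fun k => ?_).trans (by rw [add_zero])
    rw [e k]
    simp only [map_add, LinearMap.add_apply, ip_comm u (d k)]; ring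
  refine ⟨fun w => ?_, hii, ?_⟩
  · refine (((hiw w).const_add (ip u w)).congr fun k => ?_).trans (by rw [add_zero])
    rw [e k, map_add, LinearMap.add_apply]
  · have h := (((hqu.const_mul 2).add hq).const_add (form hv (bottom hv) u u)).add
      (hii.const_mul (bottom hv))
    rw [mul_zero, add_zero, add_zero] at h
    refine (h.congr fun k => ?_).trans (by rw [form_shift hv 0 (bottom hv)]; ring_nf; rfl)
    rw [form_shift hv (bottom hv) 0 (bumpH1 (hη k)), e k]
    simp only [map_add, LinearMap.add_apply, form_comm hv (bottom hv) u (d k)]; ring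

/-- The trial bound on `h1`. -/
theorem trial_bound (hv : Bounded v) {E : ℝ}
    (hlow : ∀ φ : Spins 3 → Cfg 3 → ℂ, IsTest φ → E * normSq φ ≤ energy (oneBody v) φ) {a b : h1}
    (haa : ip a a = 1) (hbb : ip b b = 1) (hab : ip a b = 0) :
    E ≤ 2 * form hv 0 a a + form hv 0 b b := by
  obtain ⟨α, hα, hαw, hαn, hαq⟩ := exists_bump_approx hv a
  obtain ⟨β, hβ, hβw, hβn, hβq⟩ := exists_bump_approx hv b
  set A : ℕ → h1 := fun k => bumpH1 (hα k) with hA
  set B : ℕ → h1 := fun k => bumpH1 (hβ k) with hB
  have hx : Tendsto (fun k => ip (A k) (B k)) atTop (𝓝 0) := by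
    have e : ∀ k, ip (A k) (B k) = ip (A k - a) (B k) + ip a (B k) := fun k => by
      simp only [map_sub, LinearMap.sub_apply]; ring
    have hn1 : Tendsto (fun k => ip (A k - a) (A k - a)) atTop (𝓝 0) := by
      have := (hαn.sub ((hαw a).const_mul 2)).add_const (ip a a)
      rw [show ip a a - 2 * ip a a + ip a a = 0 by ring] at this
      refine this.congr fun k => ?_
      simp only [hA, map_sub, LinearMap.sub_apply, ip_comm a (bumpH1 (hα k))]; ring
    have h1' : Tendsto (fun k => ip (A k - a) (B k)) atTop (𝓝 0) := by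
      have hlim := hn1.sqrt.mul hβn.sqrt
      rw [Real.sqrt_zero, zero_mul] at hlim
      refine squeeze_zero_norm (fun k => ?_) hlim
      rw [Real.norm_eq_abs, ip_self (A k - a), ip_self (bumpH1 (hβ k)), ip_apply]
      exact abs_integral_mul_le (memLp_fn _) (memLp_fn _)
    have h2 := h1'.add ((hβw a).congr fun k => ip_comm _ _)
    rw [ip_comm b a, hab, add_zero] at h2
    exact h2.congr fun k => (e k).symm
  rw [haa] at hαn
  rw [hbb] at hβn
  -- orthogonalisation
  set c : ℕ → ℝ := fun k => ip (A k) (B k) / ip (A k) (A k) with hc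
  have hc0 : Tendsto c atTop (𝓝 0) := by
    simpa [hc, hA, Pi.div_def] using hx.div hαn one_ne_zero
  set γ : ℕ → Space → ℝ := fun k x => β k x + (-c k) * α k x
  have hγ : ∀ k, IsBump Set.univ (γ k) := fun k => (hβ k).add ((hα k).const_mul _)
  have hlin : ∀ k (w : h1), (w = bumpH1 (hγ k) ∨ w = B k + (-c k) • A k) →
      ip w w = ip (B k) (B k) - 2 * c k * ip (A k) (B k) + c k ^ 2 * ip (A k) (A k) ∧
      form hv 0 w w = form hv 0 (B k) (B k) - 2 * c k * form hv 0 (A k) (B k) +
        c k ^ 2 * form hv 0 (A k) (A k) ∧ ip (A k) w = ip (A k) (B k) - c k * ip (A k) (A k) := by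
    intro k w hw
    have e : w = B k + (-c k) • A k := by
      rcases hw with rfl | rfl
      · refine Subtype.ext (Prod.ext rfl (funext fun a' => funext fun x => ?_))
        show deriv3 a' (γ k) x = deriv3 a' (β k) x + -c k * deriv3 a' (α k) x
        rw [deriv3_add ((hβ k).differentiable x) (((hα k).const_mul _).differentiable x),
          deriv3_const_mul ((hα k).differentiable x)]
      · rfl
    subst e
    simp only [map_add, map_smul, LinearMap.add_apply, LinearMap.smul_apply, smul_eq_mul,
      ip_comm (B k) (A k), form_comm hv 0 (B k) (A k)]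
    refine ⟨by ring, by ring, by ring⟩
  have hevA : ∀ᶠ k in atTop, 1 / 2 < ip (A k) (A k) := hαn.eventually_const_lt (by norm_num)
  have hev : ∀ᶠ k in atTop, E ≤ 2 * (form hv 0 (A k) (A k) / ip (A k) (A k)) +
      form hv 0 (bumpH1 (hγ k)) (bumpH1 (hγ k)) / ip (bumpH1 (hγ k)) (bumpH1 (hγ k)) := by
    have hevG : ∀ᶠ k in atTop, 1 / 2 < ip (bumpH1 (hγ k)) (bumpH1 (hγ k)) := by
      have : Tendsto (fun k => ip (bumpH1 (hγ k)) (bumpH1 (hγ k))) atTop (𝓝 1) := by
        have h := (hβn.sub ((hc0.const_mul 2).mul hx)).add ((hc0.pow 2).mul hαn)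
        simp only [mul_zero, sub_zero, zero_pow two_ne_zero, zero_mul, add_zero] at h
        exact h.congr fun k => ((hlin k _ (Or.inl rfl)).1).symm
      exact this.eventually_const_lt (by norm_num)
    filter_upwards [hevA, hevG] with k hk hk'
    set s := 1 / Real.sqrt (ip (A k) (A k)) with hs
    set t := 1 / Real.sqrt (ip (bumpH1 (hγ k)) (bumpH1 (hγ k))) with ht
    have hpa : (0 : ℝ) < ip (A k) (A k) := lt_trans (by norm_num) hk
    have hpg : (0 : ℝ) < ip (bumpH1 (hγ k)) (bumpH1 (hγ k)) := lt_trans (by norm_num) hk'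
    have es : ∀ (r : ℝ) {η : Space → ℝ} (hη : IsBump Set.univ η),
        bumpH1 (hη.const_mul r) = r • bumpH1 hη := fun r η hη =>
      Subtype.ext (Prod.ext rfl (funext fun a' => funext fun x =>
        deriv3_const_mul (hη.differentiable x) r a'))
    have hu1 : ip (bumpH1 ((hα k).const_mul s)) (bumpH1 ((hα k).const_mul s)) = 1 := by
      rw [es s (hα k), hs]; exact exists_unit_smul hpa.ne'
    have hu2 : ip (bumpH1 ((hγ k).const_mul t)) (bumpH1 ((hγ k).const_mul t)) = 1 := by
      rw [es t (hγ k), ht]; exact exists_unit_smul hpg.ne'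
    have ho : ip (bumpH1 ((hα k).const_mul s)) (bumpH1 ((hγ k).const_mul t)) = 0 := by
      rw [es s (hα k), es t (hγ k)]
      simp only [map_smul, LinearMap.smul_apply, smul_eq_mul]
      rw [show ip (bumpH1 (hα k)) (bumpH1 (hγ k)) = 0 from by
        rw [(hlin k _ (Or.inl rfl)).2.2, hc]
        simp only
        rw [div_mul_cancel₀ _ hpa.ne', sub_self]]
      ring
    have := slater_bump hv hlow ((hα k).const_mul s) ((hγ k).const_mul t) hu1 hu2 ho
    rw [es s (hα k), es t (hγ k), form_smul_self, form_smul_self, hs, ht, div_pow, div_pow, one_pow,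
      Real.sq_sqrt hpa.le, Real.sq_sqrt hpg.le] at this
    refine this.trans_eq ?_
    simp only [hA]; ring
  have hAq : Tendsto (fun k => form hv (bottom hv) (A k) (A k)) atTop
      (𝓝 (form hv (bottom hv) a a)) := by
    have h := hαq.sub (hαn.const_mul (bottom hv))
    rw [show form hv 0 a a - bottom hv * 1 = form hv (bottom hv) a a by
      rw [form_shift hv 0 (bottom hv), haa]; ring] at h
    exact h.congr fun k => by rw [form_shift hv 0 (bottom hv)]; ring
  have hBq : Tendsto (fun k => form hv (bottom hv) (B k) (B k)) atTop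
      (𝓝 (form hv (bottom hv) b b)) := by
    have h := hβq.sub (hβn.const_mul (bottom hv))
    rw [show form hv 0 b b - bottom hv * 1 = form hv (bottom hv) b b by
      rw [form_shift hv 0 (bottom hv), hbb]; ring] at h
    exact h.congr fun k => by rw [form_shift hv 0 (bottom hv)]; ring
  have hcross : Tendsto (fun k => c k * form hv 0 (A k) (B k)) atTop (𝓝 0) := by
    have h1' : Tendsto (fun k => c k * form hv (bottom hv) (A k) (B k)) atTop (𝓝 0) := by
      refine squeeze_zero_norm (fun k => ?_)
        (by simpa using hc0.abs.mul (hAq.sqrt.mul hBq.sqrt))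
      rw [Real.norm_eq_abs, abs_mul]
      refine mul_le_mul_of_nonneg_left ?_ (abs_nonneg _)
      rw [← Real.sqrt_mul (form_bottom_nonneg hv _)]
      refine Real.abs_le_sqrt ?_
      have key : ∀ t : ℝ, 0 ≤ form hv (bottom hv) (B k) (B k) * (t * t) +
          2 * form hv (bottom hv) (A k) (B k) * t + form hv (bottom hv) (A k) (A k) := fun t => by
        have := form_bottom_nonneg hv (A k + t • B k)
        simp only [map_add, map_smul, LinearMap.add_apply, LinearMap.smul_apply, smul_eq_mul,
          form_comm hv (bottom hv) (B k) (A k)] at this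
        linarith
      have := discrim_le_zero key
      rw [discrim] at this
      linarith
    have h := h1'.add ((hc0.mul hx).const_mul (bottom hv))
    rw [mul_zero, mul_zero, add_zero] at h
    exact h.congr fun k => by rw [form_shift hv 0 (bottom hv) (A k) (B k)]; ring
  have hg : Tendsto (fun k => form hv 0 (bumpH1 (hγ k)) (bumpH1 (hγ k))) atTop
      (𝓝 (form hv 0 b b)) := by
    have h := (hβq.sub (hcross.const_mul 2)).add ((hc0.pow 2).mul hαq)
    simp only [mul_zero, sub_zero, zero_pow two_ne_zero, zero_mul, add_zero] at h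
    refine h.congr fun k => ?_
    rw [(hlin k _ (Or.inl rfl)).2.1]; ring
  have hgn : Tendsto (fun k => ip (bumpH1 (hγ k)) (bumpH1 (hγ k))) atTop (𝓝 1) := by
    have h := (hβn.sub ((hc0.const_mul 2).mul hx)).add ((hc0.pow 2).mul hαn)
    simp only [mul_zero, sub_zero, zero_pow two_ne_zero, zero_mul, add_zero] at h
    exact h.congr fun k => ((hlin k _ (Or.inl rfl)).1).symm
  refine ge_of_tendsto ?_ hev
  have := ((hαq.div hαn one_ne_zero).const_mul 2).add (hg.div hgn one_ne_zero)
  simpa using this

end Vale.Agent.P363.KS
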