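import Vale.Agent.P363.KS.Structure.Electrons
import Vale.Agent.P363.KS.Structure.Slater

/-!
P363: a three-electron ground state fills the ground orbital twice; the rest is at the second level.
-/

noncomputable section

namespace Vale.Agent.P363.KS

open MeasureTheory Filter
open scoped BigOperators Topology ENNReal

variable {v : Space → ℝ} {hv : Bounded v} {Φ : Spins 3 → Cfg 3 → ℂ} {E : ℝ}
  {S : Slot → Family (Cfg 2)} {φ : h1}

/-- The second level. -/
def second (hv : Bounded v) (E : ℝ) : ℝ := E - 2 * bottom hv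

theorem Electrons.sum_excess (hE : Electrons hv Φ E S) :
    ∑ p, ∫ y, form hv (bottom hv) ((S p).u y) ((S p).u y) = E - 3 * bottom hv := by
  have e : ∀ p, ∫ y, form hv (bottom hv) ((S p).u y) ((S p).u y) =
      (∫ y, form hv 0 ((S p).u y) ((S p).u y)) -
        bottom hv * ∫ y, ip ((S p).u y) ((S p).u y) := fun p => by
    rw [← integral_const_mul,
      ← integral_sub ((S p).integral_form hv 0).1 ((S p).integral_ip.1.const_mul _)]
    exact integral_congr_ae (.of_forall fun y => by
      simp only [form_shift hv 0 (bottom hv)]; ring)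
  simp only [e, Finset.sum_sub_distrib, ← Finset.mul_sum, hE.energy, hE.mass]
  ring

theorem sum_spin (q : Slot → ℝ) :
    ∑ p, q p = ∑ σ : Fin 2, ∑ p : Slot, (if p.spin = σ then q p else 0) := by
  rw [Finset.sum_comm]
  simp

theorem Electrons.occupation_le (hE : Electrons hv Φ E S) (w : h1) :
    ∑ p, ∫ y, ip ((S p).u y) w ^ 2 ≤ 2 * ip w w := by
  rw [sum_spin, Fin.sum_univ_two]
  linarith [hE.pauli 0 w, hE.pauli 1 w]

/-- Three electrons are above three times the bottom. -/
theorem gap_pos (hP : BallPoincareStmt) (hE : Electrons hv Φ E S) : 0 < E - 3 * bottom hv := by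
  have hnn : ∀ p, 0 ≤ ∫ y, form hv (bottom hv) ((S p).u y) ((S p).u y) := fun p =>
    integral_nonneg fun y => form_bottom_nonneg hv _
  by_contra hle
  have h0 : ∀ p, ∀ᵐ y, form hv (bottom hv) ((S p).u y) ((S p).u y) = 0 := by
    intro p
    have hs : ∫ y, form hv (bottom hv) ((S p).u y) ((S p).u y) = 0 :=
      le_antisymm ((Finset.single_le_sum (fun q _ => hnn q) (Finset.mem_univ p)).trans
        (hE.sum_excess.trans_le (not_lt.1 hle))) (hnn p)
    exact (integral_eq_zero_iff_of_nonneg (fun y => form_bottom_nonneg hv _)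
      ((S p).integral_form hv _).1).1 hs
  have hm := hE.mass
  by_cases hz : ∀ p, ∀ᵐ y, ip ((S p).u y) ((S p).u y) = 0
  · have : ∀ p, ∫ y, ip ((S p).u y) ((S p).u y) = 0 := fun p => integral_eq_zero_of_ae (hz p)
    simp [this] at hm
  push Not at hz
  obtain ⟨p, hp⟩ := hz
  obtain ⟨y, hy, hy0⟩ := (hp.and_eventually (h0 p)).exists
  obtain ⟨φ, hφ⟩ := exists_ground hP hv (exists_unit_smul hy)
    (by rw [form_smul_self, hy0, mul_zero])
  have hsq : ∀ p, ∫ y, ip ((S p).u y) ((S p).u y) = ∫ y, ip ((S p).u y) φ ^ 2 := fun p => by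
    refine integral_congr_ae ?_
    filter_upwards [h0 p] with y hy
    rw [ip_self]
    calc _ = ∫ x, ip ((S p).u y) φ ^ 2 * fn φ x ^ 2 := by
          refine integral_congr_ae ?_
          filter_upwards [hφ.simple _ hy] with x hx
          rw [hx, mul_pow]
      _ = _ := by rw [integral_const_mul, ← ip_self, hφ.unit, mul_one]
  simp only [hsq] at hm
  have := hE.occupation_le φ
  rw [hφ.unit, hm] at this
  norm_num at this

/-- The ground orbital exists. -/
theorem exists_orbital (hP : BallPoincareStmt) (hE : Electrons hv Φ E S)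
    (hlow : ∀ ψ : Spins 3 → Cfg 3 → ℂ, IsTest ψ → E * normSq ψ ≤ energy (oneBody v) ψ) :
    ∃ φ, Ground hv φ := by
  obtain ⟨w, hw1, hw⟩ := exists_null hv (gap_pos hP hE) fun a b ha hb hab => by
    rw [form_shift hv 0 (bottom hv) a a, form_shift hv 0 (bottom hv) b b, ha, hb]
    linarith [trial_bound hv hlow ha hb hab]
  exact exists_ground hP hv hw1 hw

/-- The second level bounds the form orthogonally to the ground orbital. -/
theorem second_le (hlow : ∀ ψ : Spins 3 → Cfg 3 → ℂ, IsTest ψ → E * normSq ψ ≤ energy (oneBody v) ψ)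
    (hφ : Ground hv φ) {w : h1} (hw : ip w φ = 0) : 0 ≤ form hv (second hv E) w w := by
  rw [form_shift hv (bottom hv) (second hv E)]
  rcases eq_or_ne (ip w w) 0 with h | h
  · rw [h, mul_zero, add_zero]
    exact form_bottom_nonneg hv w
  have hpos := lt_of_le_of_ne (ip_self_nonneg w) h.symm
  have hb := exists_unit_smul h
  have ht := trial_bound hv hlow hφ.unit hb (by rw [map_smul, smul_eq_mul, ip_comm φ, hw, mul_zero])
  rw [form_shift hv (bottom hv) 0 φ φ, form_shift hv (bottom hv) 0 (_ • w), hφ.null, hφ.unit,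
    form_smul_self, hb, div_pow, one_pow, Real.sq_sqrt (ip_self_nonneg w)] at ht
  have := mul_le_mul_of_nonneg_right ht hpos.le
  rw [add_mul _ (1 / ip w w * _ + _), add_mul (1 / ip w w * _), div_mul_eq_mul_div, one_mul,
    div_mul_cancel₀ _ h] at this
  simp only [second]
  linarith

/-- The excited part of a family member. -/
def rest (S : Family (Cfg 2)) (φ : h1) (y : Cfg 2) : h1 := S.u y - ip (S.u y) φ • φ

/-- What a ground state says about the ground orbital and the second level. -/
structure Filled (hv : Bounded v) (E : ℝ) (φ : h1) (S : Slot → Family (Cfg 2)) : Prop where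
  occupation : ∑ p, ∫ y, ip ((S p).u y) φ ^ 2 = 2
  excited : ∀ p, ∀ᵐ y, ∀ w, form hv (second hv E) (rest (S p) φ y) w = 0
  cross : ∀ w, ∑ p, ∫ y, ip ((S p).u y) φ * ip ((S p).u y) w = 2 * ip φ w

theorem form_ground_second (hφ : Ground hv φ) {w : h1} (hw : ip w φ = 0) :
    form hv (second hv E) w φ = 0 := by
  rw [form_shift hv (bottom hv) (second hv E), hw, form_comm, eigen_of_null hv hφ.null]
  simp

theorem filled (hP : BallPoincareStmt) (hE : Electrons hv Φ E S)
    (hlow : ∀ ψ : Spins 3 → Cfg 3 → ℂ, IsTest ψ → E * normSq ψ ≤ energy (oneBody v) ψ)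
    (hφ : Ground hv φ) : Filled hv E φ S := by
  set μ := second hv E with hμ
  have horth : ∀ p y, ip (rest (S p) φ y) φ = 0 := fun p y => by
    simp only [rest, map_sub, map_smul, LinearMap.sub_apply, LinearMap.smul_apply, smul_eq_mul,
      hφ.unit]
    ring
  have hform : ∀ p y, form hv μ (rest (S p) φ y) (rest (S p) φ y) =
      form hv (bottom hv) ((S p).u y) ((S p).u y) +
        (bottom hv - μ) * (ip ((S p).u y) ((S p).u y) - ip ((S p).u y) φ ^ 2) := by
    intro p y
    rw [form_shift hv (bottom hv) μ]
    simp only [rest, map_sub, map_smul, LinearMap.sub_apply, LinearMap.smul_apply, smul_eq_mul,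
      eigen_of_null hv hφ.null, form_comm hv (bottom hv) ((S p).u y) φ, hφ.unit,
      ip_comm φ ((S p).u y)]
    ring
  have hint : ∀ p, Integrable fun y => form hv μ (rest (S p) φ y) (rest (S p) φ y) := fun p => by
    simp only [hform]
    exact ((S p).integral_form hv _).1.add
      (((S p).integral_ip.1.sub ((S p).memLp_coef φ).integrable_sq).const_mul _)
  have hval : ∀ p, ∫ y, form hv μ (rest (S p) φ y) (rest (S p) φ y) =
      (∫ y, form hv (bottom hv) ((S p).u y) ((S p).u y)) + (bottom hv - μ) *
        ((∫ y, ip ((S p).u y) ((S p).u y)) - ∫ y, ip ((S p).u y) φ ^ 2) := fun p => by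
    have i1 := (S p).integral_ip.1
    have i2 := ((S p).memLp_coef φ).integrable_sq
    simp only [hform]
    rw [integral_add ((S p).integral_form hv _).1
      (g := fun y => (bottom hv - μ) * (ip ((S p).u y) ((S p).u y) - ip ((S p).u y) φ ^ 2))
      ((i1.sub i2).const_mul _), integral_const_mul, integral_sub i1 i2]
  have hnn : ∀ p, 0 ≤ ∫ y, form hv μ (rest (S p) φ y) (rest (S p) φ y) := fun p =>
    integral_nonneg fun y => second_le hlow hφ (horth p y)
  have hsum : ∑ p, ∫ y, form hv μ (rest (S p) φ y) (rest (S p) φ y) =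
      (E - 3 * bottom hv) * ((∑ p, ∫ y, ip ((S p).u y) φ ^ 2) - 2) := by
    rw [Finset.sum_congr rfl fun p _ => hval p]
    simp only [Finset.sum_add_distrib, ← Finset.mul_sum, Finset.sum_sub_distrib,
      hE.sum_excess, hE.mass, hμ, second]
    ring
  have hle := hE.occupation_le φ
  rw [hφ.unit, mul_one] at hle
  have hocc : ∑ p, ∫ y, ip ((S p).u y) φ ^ 2 = 2 := by
    have h0 := Finset.sum_nonneg (s := Finset.univ) fun p _ => hnn p
    rw [hsum] at h0
    nlinarith [gap_pos hP hE]
  refine ⟨hocc, fun p => ?_, fun w => ?_⟩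
  · rw [hocc, sub_self, mul_zero] at hsum
    have hs := (Finset.sum_eq_zero_iff_of_nonneg fun q _ => hnn q).1 hsum p (Finset.mem_univ p)
    filter_upwards [(integral_eq_zero_iff_of_nonneg (fun y => second_le hlow hφ (horth p y))
      (hint p)).1 hs] with y hy
    intro w
    have hwV : w - ip w φ • φ ∈ LinearMap.ker (ip.flip φ) := by
      simp [LinearMap.flip_apply, hφ.unit]
    have := kernel_of_null hv (e := μ) (V := LinearMap.ker (ip.flip φ))
      (fun u hu => second_le hlow hφ (by simpa using hu))
      (by simpa using horth p y) hy hwV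
    rwa [map_sub, map_smul, smul_eq_mul, form_ground_second hφ (horth p y), mul_zero,
      sub_zero] at this
  · have hs : ∀ σ, ∑ p, (if p.spin = σ then ∫ y, ip ((S p).u y) φ * ip ((S p).u y) w else 0) =
        ip φ w := by
      intro σ
      have hq : ∑ p, (if p.spin = σ then ∫ y, ip ((S p).u y) φ ^ 2 else 0) = 1 := by
        have h0 := hE.pauli 0 φ
        have h1' := hE.pauli 1 φ
        have h2 := hocc
        rw [sum_spin, Fin.sum_univ_two] at h2
        rw [hφ.unit] at h0 h1'
        fin_cases σ <;> linarith!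
      set L := ip φ w - ∑ p, (if p.spin = σ then ∫ y, ip ((S p).u y) φ * ip ((S p).u y) w else 0)
        with hL
      have key : ∀ t : ℝ, 0 ≤ (ip w w - ∑ p, (if p.spin = σ then ∫ y, ip ((S p).u y) w ^ 2 else 0))
          * (t * t) + 2 * L * t + 0 := by
        intro t
        have h := hE.pauli σ (φ + t • w)
        have e : ∀ p, ∫ y, ip ((S p).u y) (φ + t • w) ^ 2 = (∫ y, ip ((S p).u y) φ ^ 2) +
            2 * t * (∫ y, ip ((S p).u y) φ * ip ((S p).u y) w) +
              t ^ 2 * ∫ y, ip ((S p).u y) w ^ 2 := by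
          intro p
          have i1 := ((S p).memLp_coef φ).integrable_sq
          have i2 : Integrable fun y => 2 * t * (ip ((S p).u y) φ * ip ((S p).u y) w) :=
            (((S p).memLp_coef φ).integrable_mul ((S p).memLp_coef w)).const_mul _
          have i3 := ((S p).memLp_coef w).integrable_sq.const_mul (t ^ 2)
          rw [← integral_const_mul, ← integral_const_mul, ← integral_add i1 i2,
            ← integral_add (f := fun y => ip ((S p).u y) φ ^ 2 +
              2 * t * (ip ((S p).u y) φ * ip ((S p).u y) w)) (i1.add i2) i3]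
          refine integral_congr_ae (.of_forall fun y => ?_)
          simp only [map_add, map_smul, smul_eq_mul]
          ring
        simp only [e] at h
        simp only [map_add, map_smul, LinearMap.add_apply, LinearMap.smul_apply, smul_eq_mul,
          hφ.unit, ip_comm w φ, ite_add_zero, ← mul_ite_zero, Finset.sum_add_distrib,
          ← Finset.mul_sum, hq] at h
        rw [hL]
        nlinarith
      have hd := discrim_le_zero key
      rw [discrim, mul_zero, sub_zero] at hd
      have : L = 0 := by nlinarith [sq_nonneg L]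
      rw [hL] at this
      linarith
    rw [sum_spin, Fin.sum_univ_two, hs, hs]
    ring

end Vale.Agent.P363.KS
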