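import Vale.Agent.P363.KS.Structure.Positive

/-!
P363: the lowest level of the one-body form is attained and simple, once two orthonormal functions
cannot both come close to it.
-/

noncomputable section

namespace Vale.Agent.P363.KS

open MeasureTheory Filter
open scoped BigOperators Topology

variable {v : Space → ℝ}

/-- The form on one element in terms of a scalar. -/
theorem form_smul_self (hv : Bounded v) (e c : ℝ) (u : h1) :
    form hv e (c • u) (c • u) = c ^ 2 * form hv e u u := by
  simp only [map_smul, LinearMap.smul_apply, smul_eq_mul]; ring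

theorem ip_smul_self (c : ℝ) (u : h1) : ip (c • u) (c • u) = c ^ 2 * ip u u := by
  simp only [map_smul, LinearMap.smul_apply, smul_eq_mul]; ring

/-- A nonzero element can be normalised. -/
theorem exists_unit_smul {u : h1} (hu : ip u u ≠ 0) :
    ip ((1 / Real.sqrt (ip u u)) • u) ((1 / Real.sqrt (ip u u)) • u) = 1 := by
  rw [ip_smul_self, div_pow, one_pow, Real.sq_sqrt (ip_self_nonneg u), one_div_mul_cancel hu]

/-- There is a normalised element. -/
theorem exists_unit : ∃ u : h1, ip u u = 1 := by
  obtain ⟨χ, hχ, h01, W, hW, hKW, hW1⟩ := exists_cutoff isOpen_univ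
    (isCompact_singleton (x := (0 : Space))) (Set.subset_univ _)
  have hc : ∀ a, MemLp (deriv3 a χ) 2 := fun a =>
    (hχ.deriv a).continuous.memLp_of_hasCompactSupport (hχ.deriv a).compact
  set u : h1 := mk ⟨hχ.continuous.memLp_of_hasCompactSupport hχ.compact, hc,
    HasWeakGrad.of_contDiffOn isOpen_univ
      (hχ.smooth.of_le (by exact_mod_cast le_top)).contDiffOn⟩ with hu
  refine ⟨_, exists_unit_smul (u := u) fun h => ?_⟩
  have h0 := ip_self_eq_zero h
  simp only [hu, fn_mk] at h0
  have := (Continuous.ae_eq_iff_eq volume hχ.continuous continuous_const).1 h0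
  have h1 := hW1 0 (hKW (Set.mem_singleton 0))
  rw [congrFun this 0] at h1
  exact zero_ne_one h1

/-- The bottom of the form. -/
def bottom (hv : Bounded v) : ℝ := sInf ((fun u : h1 => form hv 0 u u) '' {u | ip u u = 1})

theorem bddBelow_values (hv : Bounded v) :
    BddBelow ((fun u : h1 => form hv 0 u u) '' {u | ip u u = 1}) := by
  obtain ⟨C, -, hC⟩ := form_bounds hv 0
  refine ⟨-C / 4, ?_⟩
  rintro _ ⟨u, hu, rfl⟩
  have := (hC u).1
  rw [show ip u u = 1 from hu] at this
  linarith [dirichlet_nonneg (gr u)]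

theorem form_bottom_nonneg (hv : Bounded v) (u : h1) : 0 ≤ form hv (bottom hv) u u := by
  rw [form_shift hv 0]
  rcases eq_or_ne (ip u u) 0 with h | h
  · obtain ⟨C, -, hC⟩ := form_bounds hv 0
    have := (hC u).1
    rw [h] at this ⊢
    linarith [dirichlet_nonneg (gr u)]
  · have := csInf_le (bddBelow_values hv) ⟨_, exists_unit_smul h, rfl⟩
    change bottom hv ≤ form hv 0 _ _ at this
    rw [form_smul_self, div_pow, one_pow, Real.sq_sqrt (ip_self_nonneg u), div_mul_eq_mul_div,
      one_mul, le_div_iff₀ (lt_of_le_of_ne (ip_self_nonneg u) h.symm)] at this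
    linarith

theorem exists_near_bottom (hv : Bounded v) {t : ℝ} (ht : 0 < t) :
    ∃ u : h1, ip u u = 1 ∧ form hv (bottom hv) u u < t := by
  obtain ⟨u₀, hu₀⟩ := exists_unit
  obtain ⟨_, ⟨u, hu, rfl⟩, hlt⟩ := exists_lt_of_csInf_lt
    (Set.Nonempty.image (fun u : h1 => form hv 0 u u) (s := {u : h1 | ip u u = 1}) ⟨u₀, hu₀⟩)
    (lt_add_of_pos_right (bottom hv) ht)
  refine ⟨u, hu, ?_⟩
  rw [form_shift hv 0, show ip u u = 1 from hu]
  linarith

/-- A null vector of a nonnegative form is in its kernel. -/
theorem kernel_of_null (hv : Bounded v) {e : ℝ} {V : Submodule ℝ h1}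
    (h : ∀ u ∈ V, 0 ≤ form hv e u u) {w : h1} (hwV : w ∈ V) (hw : form hv e w w = 0)
    {u : h1} (hu : u ∈ V) : form hv e w u = 0 := by
  have key : ∀ t : ℝ, 0 ≤ 2 * t * form hv e w u + t ^ 2 * form hv e u u := by
    intro t
    have := h (w + t • u) (V.add_mem hwV (V.smul_mem t hu))
    simp only [map_add, map_smul, LinearMap.add_apply, LinearMap.smul_apply, smul_eq_mul, hw,
      form_comm hv e u w] at this
    linarith
  by_contra hne
  have hq := h u hu
  have := key (-form hv e w u / (form hv e u u + 1))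
  have hp : 0 < form hv e u u + 1 := by linarith
  have e1 : 2 * (-form hv e w u / (form hv e u u + 1)) * form hv e w u +
      (-form hv e w u / (form hv e u u + 1)) ^ 2 * form hv e u u =
      -(form hv e w u ^ 2) * (form hv e u u + 2) / (form hv e u u + 1) ^ 2 := by
    field_simp; ring
  rw [e1] at this
  have hlt : -(form hv e w u ^ 2) * (form hv e u u + 2) / (form hv e u u + 1) ^ 2 < 0 :=
    div_neg_of_neg_of_pos (mul_neg_of_neg_of_pos (neg_neg_of_pos (by positivity)) (by linarith))
      (by positivity)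
  linarith

theorem eigen_of_null (hv : Bounded v) {w : h1} (hw : form hv (bottom hv) w w = 0) (u : h1) :
    form hv (bottom hv) w u = 0 :=
  kernel_of_null hv (V := ⊤) (fun u _ => form_bottom_nonneg hv u) trivial hw trivial

/-- The absolute value has the same norm and form. -/
theorem exists_abs (hv : Bounded v) (e : ℝ) (w : h1) : ∃ u : h1,
    (∀ x, fn u x = |fn w x|) ∧ ip u u = ip w w ∧ form hv e u u = form hv e w w := by
  have hg := w.2.weak.abs isOpen_univ
  have hsq : ∀ᵐ x, ∀ a, (Real.sign (fn w x) * gr w a x) ^ 2 = gr w a x ^ 2 := by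
    refine ae_all_iff.2 fun a => ?_
    have h := w.2.weak.ae_eq_zero_of_eq isOpen_univ 0 a
    rw [Measure.restrict_univ] at h
    filter_upwards [h] with x hx
    rcases lt_trichotomy (fn w x) 0 with h' | h' | h'
    · simp [Real.sign_of_neg h']
    · simp [h', hx h']
    · simp [Real.sign_of_pos h']
  have hm : ∀ a, MemLp (fun x => Real.sign (fn w x) * gr w a x) 2 := fun a => by
    refine MemLp.of_le (memLp_gr w a) ?_ (.of_forall fun x => ?_)
    · exact (locallyIntegrableOn_univ.1 (hg.2.1 a)).aestronglyMeasurable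
    · rw [norm_mul]
      refine mul_le_of_le_one_left (norm_nonneg _) ?_
      rcases Real.sign_apply_eq (fn w x) with h | h | h <;> simp [h]
  refine ⟨mk ⟨(memLp_fn w).norm, hm, hg⟩, fun x => rfl, ?_, ?_⟩
  · rw [ip_self, ip_self]
    exact integral_congr_ae (.of_forall fun x => sq_abs _)
  · rw [form_apply, form_apply, Top.bil, Top.bil]
    refine integral_congr_ae ?_
    filter_upwards [hsq] with x hx
    simp only [fn_mk, gr_mk, ← sq, mul_assoc, hx]
    simp only [Real.norm_eq_abs, sq_abs]

/-- A null vector has constant sign. -/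
theorem null_sign (hP : BallPoincareStmt) (hv : Bounded v) {w : h1}
    (hw : form hv (bottom hv) w w = 0) : (∀ᵐ x, fn w x ≤ 0) ∨ ∀ᵐ x, 0 < fn w x := by
  obtain ⟨u, hu, -, huu⟩ := exists_abs hv (bottom hv) w
  rw [hw] at huu
  have heq : ∀ z, form hv (bottom hv) (u + w) z = 0 := fun z => by
    simp only [map_add, LinearMap.add_apply, eigen_of_null hv huu, eigen_of_null hv hw, add_zero]
  have hnn : ∀ x, 0 ≤ fn (u + w) x := fun x => by
    show 0 ≤ fn u x + fn w x
    rw [hu]; linarith [neg_abs_le (fn w x)]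
  rcases zero_or_pos hP hv hnn heq with h | h
  · left
    filter_upwards [h] with x hx
    change fn u x + fn w x = 0 at hx
    rw [hu] at hx
    linarith [abs_nonneg (fn w x)]
  · right
    filter_upwards [h] with x hx
    change 0 < fn u x + fn w x at hx
    rw [hu] at hx
    by_contra hle
    rw [abs_of_nonpos (not_lt.1 hle)] at hx
    linarith

/-- The ground orbital: positive, normalised, spanning the kernel. -/
structure Ground (hv : Bounded v) (φ : h1) : Prop where
  unit : ip φ φ = 1
  null : form hv (bottom hv) φ φ = 0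
  pos : ∀ᵐ x, 0 < fn φ x
  simple : ∀ w : h1, form hv (bottom hv) w w = 0 → fn w =ᵐ[volume] fun x => ip w φ * fn φ x

/-- A nonzero null vector gives the ground orbital. -/
theorem exists_ground (hP : BallPoincareStmt) (hv : Bounded v) {w : h1} (hw1 : ip w w = 1)
    (hw : form hv (bottom hv) w w = 0) : ∃ φ, Ground hv φ := by
  obtain ⟨u, hu, hu1, huu⟩ := exists_abs hv (bottom hv) w
  rw [hw1] at hu1
  rw [hw] at huu
  have hnn : ∀ x, 0 ≤ fn u x := fun x => by rw [hu]; exact abs_nonneg _
  have hpos : ∀ᵐ x, 0 < fn u x := by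
    refine (zero_or_pos hP hv hnn (eigen_of_null hv huu)).resolve_left fun h => ?_
    rw [ip_self] at hu1
    have : ∫ x, fn u x ^ 2 = 0 := integral_eq_zero_of_ae (by
      filter_upwards [h] with x hx
      simp [hx])
    linarith
  refine ⟨u, hu1, huu, hpos, fun z hz => ?_⟩
  set d := z - ip z u • u with hd
  have hd0 : form hv (bottom hv) d d = 0 := by
    simp only [hd, map_sub, map_smul, LinearMap.sub_apply, LinearMap.smul_apply, smul_eq_mul,
      eigen_of_null hv huu, eigen_of_null hv hz]
    ring
  have hdu : ip d u = 0 := by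
    simp only [hd, map_sub, map_smul, LinearMap.sub_apply, LinearMap.smul_apply, smul_eq_mul, hu1]
    ring
  have hnd : form hv (bottom hv) (-d) (-d) = 0 := by simpa using hd0
  have key : ∀ d : h1, ip d u = 0 → (∀ᵐ x, 0 < fn d x) → False := by
    intro d hdu h
    rw [ip_apply] at hdu
    have hp : ∀ᵐ x, 0 < fn d x * fn u x := by
      filter_upwards [h, hpos] with x h1 h2 using mul_pos h1 h2
    have := (integral_eq_zero_iff_of_nonneg_ae (hp.mono fun x hx => hx.le)
      (integrable_mul d u)).1 hdu
    have hF : ∀ᵐ _x : Space, False := by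
      filter_upwards [hp, this] with x h1 h2
      simp [h2] at h1
    rw [ae_iff] at hF
    simp at hF
  have hle : ∀ᵐ x, fn d x ≤ 0 := (null_sign hP hv hd0).resolve_right fun h => key d hdu h
  have hge : ∀ᵐ x, fn (-d) x ≤ 0 := (null_sign hP hv hnd).resolve_right fun h =>
    key (-d) (by simp [hdu]) h
  filter_upwards [hle, hge] with x h1 h2
  change fn z x - ip z u * fn u x ≤ 0 at h1
  change -(fn z x - ip z u * fn u x) ≤ 0 at h2
  linarith

/-- If two orthonormal functions cannot both be near the bottom, it is attained. -/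
theorem exists_null (hv : Bounded v) {δ : ℝ} (hδ : 0 < δ)
    (h : ∀ a b : h1, ip a a = 1 → ip b b = 1 → ip a b = 0 →
      δ ≤ 2 * form hv (bottom hv) a a + form hv (bottom hv) b b) :
    ∃ w : h1, ip w w = 1 ∧ form hv (bottom hv) w w = 0 := by
  choose u hu1 hus using fun k : ℕ => exists_near_bottom hv
    (show 0 < δ / (8 * ((k : ℝ) + 1)) by positivity)
  set s : ℕ → ℝ := fun k => δ / (8 * ((k : ℝ) + 1)) with hs
  have hs8 : ∀ k, s k ≤ δ / 8 := fun k =>
    div_le_div_of_nonneg_left hδ.le (by norm_num) (by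
      have : (0 : ℝ) ≤ (k : ℝ) := Nat.cast_nonneg k
      linarith)
  -- almost parallel
  have hpar : ∀ k m, 1 - ip (u k) (u m) ^ 2 ≤ 8 / δ * (s k + s m) := by
    intro k m
    set c := ip (u k) (u m) with hc
    set b := u m - c • u k with hb
    have hcm : ip (u m) (u k) = c := ip_comm _ _
    have hbb : ip b b = 1 - c ^ 2 := by
      simp only [hb, map_sub, map_smul, LinearMap.sub_apply, LinearMap.smul_apply, smul_eq_mul,
        hu1, hcm, ← hc]
      ring
    have hab : ip (u k) b = 0 := by
      simp only [hb, map_sub, map_smul, smul_eq_mul, hu1, ← hc]; ring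
    have hqb : form hv (bottom hv) b b ≤ 2 * s m + 2 * c ^ 2 * s k := by
      have hp := form_bottom_nonneg hv (u m + c • u k)
      simp only [hb, map_sub, map_add, map_smul, LinearMap.sub_apply, LinearMap.add_apply,
        LinearMap.smul_apply, smul_eq_mul, form_comm hv (bottom hv) (u k) (u m)] at hp ⊢
      nlinarith [hus m, hus k, mul_le_mul_of_nonneg_left (hus k).le (sq_nonneg c)]
    have hc1 : c ^ 2 ≤ 1 := by linarith [ip_self_nonneg b]
    rcases eq_or_ne (ip b b) 0 with h0 | h0
    · have : 0 ≤ 8 / δ * (s k + s m) := by positivity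
      linarith
    have := h (u k) _ (hu1 k) (exists_unit_smul h0) (by simp [map_smul, hab])
    rw [form_smul_self, div_pow, one_pow, Real.sq_sqrt (ip_self_nonneg b)] at this
    have hbp := lt_of_le_of_ne (ip_self_nonneg b) h0.symm
    have h2 : (δ - 2 * form hv (bottom hv) (u k) (u k)) * ip b b ≤ form hv (bottom hv) b b := by
      have := mul_le_mul_of_nonneg_right this hbp.le
      rw [add_mul, div_mul_eq_mul_div, one_mul, div_mul_cancel₀ _ h0] at this
      linarith
    have h3 : δ / 2 * ip b b ≤ 2 * s m + 2 * s k := by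
      refine le_trans (le_trans (mul_le_mul_of_nonneg_right ?_ hbp.le) h2)
        (hqb.trans ?_)
      · linarith [hus k, hs8 k]
      · have : 0 ≤ s k := by positivity
        nlinarith
    rw [← hbb, div_mul_eq_mul_div, le_div_iff₀ hδ]
    have : 0 ≤ s k + s m := by positivity
    nlinarith
  -- signs
  obtain ⟨K, hK⟩ := exists_nat_gt (64 : ℝ)
  set σ : ℕ → ℝ := fun k => if 0 ≤ ip (u k) (u K) then 1 else -1 with hσ
  have hσ2 : ∀ k, σ k ^ 2 = 1 := fun k => by simp only [hσ]; split <;> norm_num
  set z : ℕ → h1 := fun k => σ k • u k with hz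
  have hz1 : ∀ k, ip (z k) (z k) = 1 := fun k => by
    simp only [hz]; rw [ip_smul_self, hσ2, hu1, one_mul]
  have hzq : ∀ k, form hv (bottom hv) (z k) (z k) < s k := fun k => by
    simp only [hz]; rw [form_smul_self, hσ2, one_mul]; exact hus k
  have hsK : ∀ k, K ≤ k → 8 / δ * (s k + s K) ≤ 1 / 32 := fun k hk => by
    have hk' : (64 : ℝ) < k := hK.trans_le (by exact_mod_cast hk)
    have b : ∀ j : ℕ, (64 : ℝ) < j → 8 / δ * s j ≤ 1 / 64 := fun j hj => by
      rw [hs]; field_simp; linarith
    linarith [b k hk', b K hK]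
  have hclose : ∀ k, K ≤ k → ip (z k - u K) (z k - u K) ≤ 1 / 16 := fun k hk => by
    have hp := hpar k K
    have hbd := hsK k hk
    have habs : ip (z k) (u K) = |ip (u k) (u K)| := by
      simp only [hz, map_smul, LinearMap.smul_apply, smul_eq_mul, hσ]
      split_ifs with hh
      · rw [one_mul, abs_of_nonneg hh]
      · rw [neg_one_mul, abs_of_neg (not_le.1 hh)]
    have hle : |ip (u k) (u K)| ^ 2 = ip (u k) (u K) ^ 2 := sq_abs _
    have h1' : ip (z k - u K) (z k - u K) = 2 - 2 * |ip (u k) (u K)| := by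
      simp only [map_sub, LinearMap.sub_apply, hz1, ip_comm (u K) (z k), habs, hu1]
      ring
    have h2' : |ip (u k) (u K)| ≤ 1 := by nlinarith [ip_self_nonneg (z k - u K)]
    rw [h1']
    nlinarith [abs_nonneg (ip (u k) (u K))]
  have hpair : ∀ k m, K ≤ k → K ≤ m →
      ip (z k - z m) (z k - z m) ≤ 2 * (8 / δ * (s k + s m)) := by
    intro k m hk hm
    have h1' := hclose k hk
    have h2' := hclose m hm
    have hpp := ip_self_nonneg ((z k - u K) + (z m - u K))
    have e1 : ip (z k - z m) (z k - z m) = 2 - 2 * ip (z k) (z m) := by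
      simp only [map_sub, LinearMap.sub_apply, hz1, ip_comm (z m) (z k)]; ring
    have e2 : ip (z k - z m) (z k - z m) + ip ((z k - u K) + (z m - u K))
        ((z k - u K) + (z m - u K)) = 2 * ip (z k - u K) (z k - u K) +
        2 * ip (z m - u K) (z m - u K) := by
      simp only [map_sub, map_add, LinearMap.sub_apply, LinearMap.add_apply]; ring
    have hc0 : 0 ≤ ip (z k) (z m) := by linarith
    have hc1 : ip (z k) (z m) ≤ 1 := by linarith [ip_self_nonneg (z k - z m)]
    have hsq : ip (z k) (z m) ^ 2 = ip (u k) (u m) ^ 2 := by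
      simp only [hz, map_smul, LinearMap.smul_apply, smul_eq_mul]
      rw [show (σ m * (σ k * ip (u k) (u m))) ^ 2 = σ m ^ 2 * σ k ^ 2 * ip (u k) (u m) ^ 2 by ring,
        hσ2, hσ2, one_mul, one_mul]
    have := hpar k m
    rw [e1]
    nlinarith
  obtain ⟨C, hC0, hC⟩ := form_bounds hv (bottom hv)
  have hlim : ∀ ε > (0 : ℝ), ∃ N, ∀ k ≥ N, ∀ m ≥ N,
      ip (z k - z m) (z k - z m) + dirichlet (gr (z k - z m)) ≤ ε := by
    intro ε hε
    obtain ⟨N, hN⟩ := exists_nat_gt ((4 * (C + 1) + δ * 8) / ε)
    refine ⟨max K N, fun k hk m hm => ?_⟩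
    have hd := (hC (z k - z m)).1
    have hq : form hv (bottom hv) (z k - z m) (z k - z m) ≤ 2 * s k + 2 * s m := by
      have hp := form_bottom_nonneg hv (z k + z m)
      simp only [map_sub, map_add, LinearMap.sub_apply, LinearMap.add_apply,
        form_comm hv (bottom hv) (z m) (z k)] at hp ⊢
      linarith [hzq k, hzq m]
    have hp := hpair k m (le_of_max_le_left hk) (le_of_max_le_left hm)
    have b : ∀ j, N ≤ j → (4 * (C + 1) + δ * 8) * (s j / δ) * 4 ≤ ε / 2 := fun j hj => by
      have hj' : (4 * (C + 1) + δ * 8) / ε < (j : ℝ) + 1 :=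
        (hN.trans_le (by exact_mod_cast hj)).trans (lt_add_one _)
      rw [div_lt_iff₀ hε] at hj'
      rw [hs]; field_simp; linarith
    have hk2 := b k (le_of_max_le_right hk)
    have hm2 := b m (le_of_max_le_right hm)
    have hsd : 8 / δ * (s k + s m) = 8 * (s k / δ) + 8 * (s m / δ) := by ring
    have hCip := mul_le_mul_of_nonneg_left hp (show 0 ≤ C + 1 by linarith)
    rw [hsd] at hp hCip
    have e3 : ∀ j, 8 * s j = δ * 8 * (s j / δ) := fun j => by field_simp
    nlinarith [e3 k, e3 m, show 0 ≤ s k / δ by positivity, show 0 ≤ s m / δ by positivity]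
  obtain ⟨w, hw⟩ := exists_limit z hlim
  have hip : Tendsto (fun k => ip (z k - w) (z k - w)) atTop (𝓝 0) :=
    squeeze_zero (fun k => ip_self_nonneg _)
      (fun k => le_add_of_nonneg_right (dirichlet_nonneg _)) hw
  have hinner := tendsto_integral_mul (fun k => memLp_fn (z k)) (memLp_fn w) (memLp_fn w)
    (hip.congr fun k => ip_self (z k - w))
  refine ⟨w, ?_, le_antisymm ?_ (form_bottom_nonneg hv w)⟩
  · have h' := ((hinner.const_mul (2 : ℝ)).sub_const 1).add hip
    rw [add_zero] at h'
    have hc : ∀ k, 2 * (∫ x, fn (z k) x * fn w x) - 1 + ip (z k - w) (z k - w) = ip w w := by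
      intro k
      simp only [map_sub, LinearMap.sub_apply, hz1, ip_comm w (z k), ← ip_apply]; ring
    have := tendsto_nhds_unique (h'.congr hc) tendsto_const_nhds
    rw [← ip_apply] at this
    linarith
  · have hq : ∀ k, form hv (bottom hv) w w ≤ 2 * s k + 2 * (C * (dirichlet (gr (z k - w)) +
        ip (z k - w) (z k - w))) := by
      intro k
      have hp := form_bottom_nonneg hv ((2 : ℝ) • z k - w)
      have hb := (abs_le.1 (hC (z k - w)).2).2
      simp only [map_sub, map_smul, LinearMap.sub_apply, LinearMap.smul_apply, smul_eq_mul,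
        form_comm hv (bottom hv) w (z k)] at hp hb ⊢
      linarith [hzq k]
    refine ge_of_tendsto (x := atTop) ?_ (.of_forall hq)
    have h1' : Tendsto s atTop (𝓝 0) := by
      have := (tendsto_one_div_add_atTop_nhds_zero_nat (𝕜 := ℝ)).const_mul (δ / 8)
      rw [mul_zero] at this
      exact this.congr fun k => by rw [hs]; field_simp
    have h2' := (h1'.const_mul (2 : ℝ)).add
      (((hw.congr fun k => add_comm _ _).const_mul C).const_mul (2 : ℝ))
    rwa [mul_zero, mul_zero, mul_zero, add_zero] at h2'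

end Vale.Agent.P363.KS
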