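import Vale.Agent.P363.KS.Structure.Levels
import Mathlib.Analysis.InnerProductSpace.l2Space

/-!
P363: the excited electron as countably many orbitals of the second level, and the density.
-/

noncomputable section

namespace Vale.Agent.P363.KS

open MeasureTheory Filter
open scoped BigOperators Topology ENNReal

/-- Countably many weights compute all square integrals. -/
theorem exists_parseval (n : ℕ) : ∃ h : ℕ → Cfg n → ℝ, (∀ j, MemLp (h j) 2) ∧
    ∀ G : Cfg n → ℝ, MemLp G 2 → HasSum (fun j => (∫ y, h j y * G y) ^ 2) (∫ y, G y ^ 2) := by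
  have : Fact ((2 : ℝ≥0∞) ≠ ∞) := ⟨by norm_num⟩
  have : TopologicalSpace.SeparableSpace (Lp ℝ 2 (volume : Measure (Cfg n))) := inferInstance
  obtain ⟨B, b, hb⟩ := exists_hilbertBasis ℝ (Lp ℝ 2 (volume : Measure (Cfg n)))
  have : Countable B := by
    have hd : Pairwise fun i j : B => Disjoint (Metric.ball (b i) (1 / 2)) (Metric.ball (b j) (1 / 2)) := by
      intro i j hij
      refine Metric.ball_disjoint_ball ?_
      rw [dist_eq_norm]
      have : ‖b i - b j‖ ^ 2 = 2 := by
        rw [norm_sub_sq_real, b.orthonormal.1, b.orthonormal.1, b.orthonormal.2 hij]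
        norm_num
      nlinarith [norm_nonneg (b i - b j)]
    exact Pairwise.countable_of_isOpen_disjoint hd (fun i => Metric.isOpen_ball)
      fun i => ⟨b i, Metric.mem_ball_self (by norm_num)⟩
  obtain ⟨e, he⟩ := exists_injective_nat B
  refine ⟨fun j => Function.extend e (fun i => (b i : Cfg n → ℝ)) 0 j, fun j => ?_, fun G hG => ?_⟩
  · by_cases hj : ∃ i, e i = j
    · obtain ⟨i, rfl⟩ := hj
      simpa only [he.extend_apply] using Lp.memLp (b i)
    · simp only [Function.extend_apply' _ _ _ hj]
      exact MemLp.zero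
  · set x := hG.toLp G with hx
    have hip : ∀ i, inner ℝ (b i) x = ∫ y, (b i : Cfg n → ℝ) y * G y := fun i => by
      rw [L2.inner_def]
      refine integral_congr_ae ?_
      filter_upwards [hG.coeFn_toLp] with y hy
      rw [hx, hy, RCLike.inner_apply, starRingEnd_apply, star_trivial, mul_comm]
    have hn : inner ℝ x x = ∫ y, G y ^ 2 := by
      rw [L2.inner_def]
      refine integral_congr_ae ?_
      filter_upwards [hG.coeFn_toLp] with y hy
      rw [hx, hy, RCLike.inner_apply, starRingEnd_apply, star_trivial, sq]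
    have hs := b.hasSum_inner_mul_inner x x
    simp only [fun i => real_inner_comm (b i) x, hip, hn, ← sq] at hs
    refine (he.hasSum_iff fun j hj => ?_).1 ?_
    · simp [Function.extend_apply' _ _ _ hj]
    · refine hs.congr_fun fun i => ?_
      simp only [Function.comp_apply, he.extend_apply]

variable {v : Space → ℝ} {hv : Bounded v} {Φ : Spins 3 → Cfg 3 → ℂ} {E : ℝ}
  {S : Slot → Family (Cfg 2)} {φ : h1}

theorem Electrons.density_eq (hE : Electrons hv Φ E S) :
    ∀ᵐ r, density Φ r = ENNReal.ofReal (∑ p, ∫ y, (S p).F y r ^ 2) := by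
  filter_upwards [ae_all_iff.2 fun p => Family.memLp_sliceR (S p).mem] with r hr
  have hi : ∀ p, Integrable fun y => (S p).F y r ^ 2 := fun p => (hr p).integrable_sq
  have e : ∀ i s, ∫⁻ y, ‖Φ s (Fin.insertNth i r y)‖ₑ ^ 2 =
      ENNReal.ofReal (∑ b, ∫ y, (S (i, s, b)).F y r ^ 2) := by
    intro i s
    rw [← integral_finsetSum _ fun b _ => hi (i, s, b),
      ofReal_integral_eq_lintegral_ofReal (integrable_finsetSum _ fun b _ => hi (i, s, b))
        (.of_forall fun y => Finset.sum_nonneg fun b _ => sq_nonneg _)]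
    refine lintegral_congr fun y => ?_
    simp only [hE.value]
    rw [part_sq_sum, ← ofReal_norm, ← ENNReal.ofReal_pow (norm_nonneg _)]
    rfl
  simp only [density, e]
  rw [Fintype.sum_prod_type,
    ENNReal.ofReal_sum_of_nonneg fun i _ => Finset.sum_nonneg fun q _ =>
      integral_nonneg fun y => sq_nonneg _]
  refine Finset.sum_congr rfl fun i _ => ?_
  rw [Fintype.sum_prod_type, ENNReal.ofReal_sum_of_nonneg fun s _ => Finset.sum_nonneg fun b _ =>
    integral_nonneg fun y => sq_nonneg _]

/-- The orbitals of one ground state. -/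
structure Orbitals (hv : Bounded v) (E : ℝ) (φ : h1) (Φ : Spins 3 → Cfg 3 → ℂ) (f : Slot × ℕ → h1) :
    Prop where
  orth : ∀ q, ip (f q) φ = 0
  eigen : ∀ q w, form hv (second hv E) (f q) w = 0
  density_eq : ∀ᵐ r, density Φ r =
    2 * ENNReal.ofReal (fn φ r ^ 2) + ∑' q, ENNReal.ofReal (fn (f q) r ^ 2)
  total : ∑' q, ENNReal.ofReal (ip (f q) (f q)) = 1

theorem exists_orbitals (hE : Electrons hv Φ E S) (hφ : Ground hv φ) (hF : Filled hv E φ S) :
    ∃ f, Orbitals hv E φ Φ f := by
  obtain ⟨h, hh, hpar⟩ := exists_parseval 2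
  set a : Slot → Cfg 2 → ℝ := fun p y => ip ((S p).u y) φ with ha
  have ha2 : ∀ p, MemLp (a p) 2 := fun p => (S p).memLp_coef φ
  set g : Slot → Cfg 2 → Space → ℝ := fun p y r => (S p).F y r - a p y * fn φ r with hg
  choose A hA hAw using fun (q : Slot × ℕ) => (S q.1).exists_avg hv (hh q.2)
  choose D hD hDw using fun p => (S p).exists_avg hv (ha2 p)
  set c : Slot × ℕ → ℝ := fun q => ∫ y, h q.2 y * a q.1 y with hc
  -- cross term
  have hcross : ∀ᵐ r, ∑ p, ∫ y, a p y * (S p).F y r = 2 * fn φ r := by
    have hz : ∀ w, ip (∑ p, D p - (2 : ℝ) • φ) w = 0 := fun w => by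
      simp only [map_sub, map_sum, map_smul, LinearMap.sub_apply, LinearMap.sum_apply,
        LinearMap.smul_apply, smul_eq_mul]
      rw [Finset.sum_congr rfl fun p _ => (hDw p w).1, ← hF.cross w]
      simp [ha]
    filter_upwards [ip_self_eq_zero (hz _)] with r hr
    have e : fn (∑ p, D p - (2 : ℝ) • φ) r = ∑ p, fn (D p) r - 2 * fn φ r := by
      simp [fn, Finset.sum_apply, Prod.fst_sum]
    rw [Pi.zero_apply, e] at hr
    rw [Finset.sum_congr rfl fun p _ => hD p r] at hr
    linarith
  -- the family without the ground orbital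
  have hg2 : ∀ p, MemLp (fun z : Cfg 2 × Space => g p z.1 z.2) 2 (volume.prod volume) := fun p =>
    (S p).mem.sub ((memLp_two_iff_integrable_sq ((ha2 p).1.comp_fst.mul (memLp_fn φ).1.comp_snd)).2
      (((ha2 p).integrable_sq.mul_prod (memLp_fn φ).integrable_sq).congr
        (.of_forall fun z => (mul_pow _ _ _).symm)))
  have hfr : ∀ᵐ r, ∀ q : Slot × ℕ,
      fn (A q - c q • φ) r = ∫ y, h q.2 y * g q.1 y r := by
    filter_upwards [ae_all_iff.2 fun p => Family.memLp_sliceR (S p).mem] with r hr q
    show fn (A q) r - c q * fn φ r = _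
    have i1 : Integrable fun y => h q.2 y * (S q.1).F y r := (hh q.2).integrable_mul (hr q.1)
    have i2 : Integrable fun y => h q.2 y * a q.1 y * fn φ r :=
      ((hh q.2).integrable_mul (ha2 q.1)).mul_const _
    rw [hA, hc, ← integral_mul_const, ← integral_sub i1 i2]
    exact integral_congr_ae (.of_forall fun y => by simp only [hg]; ring)
  have hsq : ∀ᵐ r, ∑' q : Slot × ℕ, ENNReal.ofReal (fn (A q - c q • φ) r ^ 2) =
      ENNReal.ofReal (∑ p, ∫ y, g p y r ^ 2) := by
    filter_upwards [hfr, ae_all_iff.2 fun p => Family.memLp_sliceR (hg2 p)] with r hr hr2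
    simp only [hr]
    rw [ENNReal.tsum_prod', tsum_fintype, ENNReal.ofReal_sum_of_nonneg fun p _ =>
      integral_nonneg fun y => sq_nonneg _]
    refine Finset.sum_congr rfl fun p _ => ?_
    rw [← (hpar _ (hr2 p)).tsum_eq, ENNReal.ofReal_tsum_of_nonneg (fun j => sq_nonneg _)
      (hpar _ (hr2 p)).summable]
  refine ⟨fun q => A q - c q • φ, ⟨fun q => ?_, fun q w => ?_, ?_, ?_⟩⟩
  · simp only [map_sub, map_smul, LinearMap.sub_apply, LinearMap.smul_apply, smul_eq_mul,
      hφ.unit, mul_one]
    rw [(hAw q φ).1]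
    exact sub_self _
  · simp only [map_sub, map_smul, LinearMap.sub_apply, LinearMap.smul_apply, smul_eq_mul]
    rw [(hAw q w).2, hc, ← integral_mul_const, sub_eq_zero]
    refine integral_congr_ae ?_
    filter_upwards [hF.excited q.1] with y hy
    have := hy w
    simp only [rest, map_sub, map_smul, LinearMap.sub_apply, LinearMap.smul_apply, smul_eq_mul]
      at this
    rw [mul_assoc, ha]
    simp only
    rw [sub_eq_zero] at this
    rw [this]
  · filter_upwards [hE.density_eq, hsq, hcross,
      ae_all_iff.2 fun p => Family.memLp_sliceR (S p).mem] with r hd hs hx hr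
    have e : ∀ p, ∫ y, g p y r ^ 2 = (∫ y, (S p).F y r ^ 2) -
        2 * fn φ r * (∫ y, a p y * (S p).F y r) + fn φ r ^ 2 * ∫ y, a p y ^ 2 := by
      intro p
      have i1 := (hr p).integrable_sq
      have i2 : Integrable fun y => 2 * fn φ r * (a p y * (S p).F y r) :=
        ((ha2 p).integrable_mul (hr p)).const_mul _
      have i3 := (ha2 p).integrable_sq.const_mul (fn φ r ^ 2)
      rw [← integral_const_mul, ← integral_const_mul, ← integral_sub i1 i2,
        ← integral_add (f := fun y => (S p).F y r ^ 2 - 2 * fn φ r * (a p y * (S p).F y r))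
          (i1.sub i2) i3]
      exact integral_congr_ae (.of_forall fun y => by simp only [hg]; ring)
    rw [hd, hs, show (2 : ℝ≥0∞) * ENNReal.ofReal (fn φ r ^ 2) = ENNReal.ofReal (2 * fn φ r ^ 2) by
        rw [ENNReal.ofReal_mul (by norm_num)]; simp,
      ← ENNReal.ofReal_add (by positivity)
        (Finset.sum_nonneg fun p _ => integral_nonneg fun y => sq_nonneg _)]
    congr 1
    simp only [e, Finset.sum_add_distrib, Finset.sum_sub_distrib, ← Finset.mul_sum, hx]
    simp only [ha, hF.occupation]
    ring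
  · have e : ∀ q, ENNReal.ofReal (ip (A q - c q • φ) (A q - c q • φ)) =
        ∫⁻ r, ENNReal.ofReal (fn (A q - c q • φ) r ^ 2) := fun q => by
      rw [ip_self]
      exact ofReal_integral_eq_lintegral_ofReal (memLp_fn _).integrable_sq
        (.of_forall fun r => sq_nonneg _)
    have i1 : ∀ p, Integrable fun r => ∫ y, g p y r ^ 2 := fun p =>
      (hg2 p).integrable_sq.integral_prod_right
    simp only [e]
    rw [← lintegral_tsum fun q => (memLp_fn _).integrable_sq.aemeasurable.ennreal_ofReal,
      lintegral_congr_ae hsq, ← ofReal_integral_eq_lintegral_ofReal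
        (integrable_finsetSum _ fun p _ => i1 p)
        (.of_forall fun r => Finset.sum_nonneg fun p _ => integral_nonneg fun y => sq_nonneg _),
      integral_finsetSum _ fun p _ => i1 p]
    have e2 : ∀ p, ∫ r, ∫ y, g p y r ^ 2 =
        (∫ y, ip ((S p).u y) ((S p).u y)) - ∫ y, a p y ^ 2 := fun p => by
      rw [← integral_sub (S p).integral_ip.1 (ha2 p).integrable_sq,
        ← integral_integral_swap (f := fun y r => g p y r ^ 2) (hg2 p).integrable_sq]
      refine integral_congr_ae ?_
      filter_upwards [(S p).ae_u] with y hy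
      calc ∫ r, g p y r ^ 2 = ip (rest (S p) φ y) (rest (S p) φ y) := by
            rw [ip_self]
            refine integral_congr_ae (.of_forall fun r => ?_)
            show _ = (fn ((S p).u y) r - a p y * fn φ r) ^ 2
            rw [hy.1]
        _ = _ := by
            simp only [rest, ha, map_sub, map_smul, LinearMap.sub_apply, LinearMap.smul_apply,
              smul_eq_mul, hφ.unit, ip_comm φ ((S p).u y)]
            ring
    rw [Finset.sum_congr rfl fun p _ => e2 p, Finset.sum_sub_distrib, hE.mass]
    simp only [ha, hF.occupation]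
    norm_num

end Vale.Agent.P363.KS
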