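import Vale.Agent.P363.KS.Structure.Form
import Vale.Agent.P363.Tool.Weak.Chain
import Vale.Agent.P363.Tool.Weak.Product

/-!
P363: a nonnegative weak solution of `(-Δ/2 + v - e) f = 0` is almost everywhere zero or almost
everywhere positive: the logarithm of `f + ε` has a gradient bounded in mean square.
-/

noncomputable section

namespace Vale.Agent.P363.KS

open MeasureTheory Filter Set Metric
open scoped BigOperators Topology ENNReal

/-- A `C¹` extension of `t ↦ 1 / (ε + t)` from the half line. -/
def recip (ε t : ℝ) : ℝ := 1 / ε - ∫ s in (0 : ℝ)..t, 1 / (ε + |s|) ^ 2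

/-- A `C¹` extension of `t ↦ log (1 + t / ε)` from the half line. -/
def logShift (ε t : ℝ) : ℝ := ∫ s in (0 : ℝ)..t, 1 / (ε + |s|)

section Scalar

variable {ε : ℝ} (hε : 0 < ε)

include hε in
theorem continuous_inv_shift : Continuous fun s : ℝ => 1 / (ε + |s|) :=
  continuous_const.div (by fun_prop) fun s => (by positivity : (0 : ℝ) < ε + |s|).ne'

include hε in
theorem continuous_inv_shift_sq : Continuous fun s : ℝ => 1 / (ε + |s|) ^ 2 :=
  continuous_const.div (by fun_prop) fun s => (by positivity : (0 : ℝ) < (ε + |s|) ^ 2).ne'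

include hε in
theorem hasDerivAt_recip (t : ℝ) : HasDerivAt (recip ε) (-(1 / (ε + |t|) ^ 2)) t := by
  have h := ((continuous_inv_shift_sq hε).integral_hasStrictDerivAt 0 t).hasDerivAt
  exact (hasDerivAt_const t (1 / ε)).fun_sub h |>.congr_deriv (by ring)

include hε in
theorem hasDerivAt_logShift (t : ℝ) : HasDerivAt (logShift ε) (1 / (ε + |t|)) t :=
  ((continuous_inv_shift hε).integral_hasStrictDerivAt 0 t).hasDerivAt

include hε in
theorem contDiff_recip : ContDiff ℝ 1 (recip ε) := by
  refine contDiff_one_iff_deriv.2 ⟨fun t => (hasDerivAt_recip hε t).differentiableAt, ?_⟩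
  rw [deriv_eq (hasDerivAt_recip hε)]
  exact (continuous_inv_shift_sq hε).neg

include hε in
theorem contDiff_logShift : ContDiff ℝ 1 (logShift ε) := by
  refine contDiff_one_iff_deriv.2 ⟨fun t => (hasDerivAt_logShift hε t).differentiableAt, ?_⟩
  rw [deriv_eq (hasDerivAt_logShift hε)]
  exact continuous_inv_shift hε

include hε in
theorem recip_eq {t : ℝ} (ht : 0 ≤ t) : recip ε t = 1 / (ε + t) := by
  have h : ∫ s in (0 : ℝ)..t, 1 / (ε + |s|) ^ 2 = -(1 / (ε + t)) - -(1 / (ε + 0)) := by
    refine intervalIntegral.integral_eq_sub_of_hasDerivAt (f := fun s => -(1 / (ε + s)))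
      (fun s hs => ?_) ((continuous_inv_shift_sq hε).intervalIntegrable _ _)
    rw [uIcc_of_le ht] at hs
    have hne : ε + s ≠ 0 := by linarith [hs.1]
    have := (((hasDerivAt_id s).const_add ε).inv hne).neg
    simp only [id] at this
    refine (this.congr_deriv ?_).congr_of_eventuallyEq (.of_forall fun y => by simp [one_div])
    rw [abs_of_nonneg hs.1]; ring
  rw [recip, h]; ring

include hε in
theorem logShift_eq {t : ℝ} (ht : 0 ≤ t) : logShift ε t = Real.log (ε + t) - Real.log ε := by
  have h : ∫ s in (0 : ℝ)..t, 1 / (ε + |s|) = Real.log (ε + t) - Real.log (ε + 0) := by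
    refine intervalIntegral.integral_eq_sub_of_hasDerivAt (f := fun s => Real.log (ε + s))
      (fun s hs => ?_) ((continuous_inv_shift hε).intervalIntegrable _ _)
    rw [uIcc_of_le ht] at hs
    have hne : ε + s ≠ 0 := by linarith [hs.1]
    exact (((hasDerivAt_id s).const_add ε).log hne).congr_deriv (by rw [abs_of_nonneg hs.1]; simp)
  rw [logShift, h, add_zero]

include hε in
theorem abs_deriv_logShift_le (t : ℝ) : |deriv (logShift ε) t| ≤ 1 / ε := by
  rw [(hasDerivAt_logShift hε t).deriv, abs_of_nonneg (by positivity)]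
  exact one_div_le_one_div_of_le hε (le_add_of_nonneg_right (abs_nonneg t))

include hε in
theorem abs_deriv_recip_le (t : ℝ) : |deriv (recip ε) t| ≤ 1 / ε ^ 2 := by
  rw [(hasDerivAt_recip hε t).deriv, abs_neg, abs_of_nonneg (by positivity)]
  exact one_div_le_one_div_of_le (by positivity)
    (pow_le_pow_left₀ hε.le (le_add_of_nonneg_right (abs_nonneg t)) 2)

include hε in
theorem recip_bounds {t : ℝ} (ht : 0 ≤ t) : 0 ≤ recip ε t ∧ recip ε t ≤ 1 / ε ∧
    0 ≤ t * recip ε t ∧ t * recip ε t ≤ 1 := by
  rw [recip_eq hε ht, mul_one_div]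
  refine ⟨by positivity, one_div_le_one_div_of_le hε (le_add_of_nonneg_right ht), by positivity,
    div_le_one_of_le₀ (le_add_of_nonneg_left hε.le) (by positivity)⟩

end Scalar

variable {v : Space → ℝ}

/-- The pointwise inequality behind the logarithmic gradient bound. -/
theorem pointwise_le (η r u t : ℝ) (g D : Fin 3 → ℝ) (h0 : 0 ≤ t * r) (h1 : t * r ≤ 1) :
    (1 / 4 : ℝ) * (η ^ 2 * ∑ a, (r * g a) ^ 2) + ((1 / 2 : ℝ) *
      ∑ a, g a * (η ^ 2 * (-(r ^ 2) * g a) + 2 * η * D a * r) + u * t * (η ^ 2 * r)) ≤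
      (∑ a, D a ^ 2) + |u| * η ^ 2 := by
  have hu : u * t * (η ^ 2 * r) ≤ |u| * η ^ 2 := by
    calc u * t * (η ^ 2 * r) = u * η ^ 2 * (t * r) := by ring
      _ ≤ |u| * η ^ 2 * (t * r) :=
          mul_le_mul_of_nonneg_right (mul_le_mul_of_nonneg_right (le_abs_self u) (sq_nonneg η)) h0
      _ ≤ |u| * η ^ 2 := mul_le_of_le_one_right (by positivity) h1
  simp only [Fin.sum_univ_three]
  nlinarith [sq_nonneg (η * r * g 0 / 2 - D 0), sq_nonneg (η * r * g 1 / 2 - D 1),
    sq_nonneg (η * r * g 2 / 2 - D 2)]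

/-- The test `η² / (f + ε)` gives a gradient bound on the logarithm, uniformly in `ε`. -/
theorem log_energy (hv : Bounded v) {e : ℝ} {w : h1} (h0 : ∀ x, 0 ≤ fn w x)
    (heq : ∀ u, form hv e w u = 0) {η : Space → ℝ} (hη : IsBump Set.univ η) {ε : ℝ} (hε : 0 < ε) :
    ∫ x, η x ^ 2 * ∑ a, (recip ε (fn w x) * gr w a x) ^ 2 ≤
      4 * (∫ x, ∑ a, deriv3 a η x ^ 2) + 4 * ∫ x, |v x - e| * η x ^ 2 := by
  set f := fn w with hf
  have hη2 : IsBump Set.univ fun x => η x ^ 2 := by
    refine ⟨hη.smooth.pow 2, ?_, Set.subset_univ _⟩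
    exact hη.compact.comp_left (g := fun t : ℝ => t ^ 2) (zero_pow two_ne_zero)
  obtain ⟨L, hL⟩ := hη2.smooth.lipschitzWith_of_hasCompactSupport hη2.compact (by simp)
  have hd : ∀ a x, deriv3 a (fun y => η y ^ 2) x = 2 * η x * deriv3 a η x := fun a x => by
    simp only [deriv3]
    rw [fderiv_fun_pow 2 (hη.differentiable x)]
    simp only [Nat.add_one_sub_one, pow_one, nsmul_eq_mul, Nat.cast_ofNat,
      smul_apply, smul_eq_mul]
  have hR : ∀ x, |recip ε (f x)| ≤ 1 / ε := fun x => by
    rw [abs_of_nonneg (recip_bounds hε (h0 x)).1]; exact (recip_bounds hε (h0 x)).2.1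
  have hfm : AEStronglyMeasurable f volume := (memLp_fn w).1
  have hRm : AEStronglyMeasurable (fun x => recip ε (f x)) volume :=
    (contDiff_recip hε).continuous.comp_aestronglyMeasurable hfm
  have hdm : ∀ a, MemLp (fun x => deriv (recip ε) (f x) * gr w a x) 2 := fun a =>
    (memLp_gr w a).of_le_mul (c := 1 / ε ^ 2)
      (((contDiff_recip hε).continuous_deriv_one.comp_aestronglyMeasurable hfm).mul
        (memLp_gr w a).1)
      (.of_forall fun x => by
        rw [norm_mul]
        exact mul_le_mul_of_nonneg_right (abs_deriv_recip_le hε _) (norm_nonneg _))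
  have hw := (w.2.weak.comp_C1 isOpen_univ (contDiff_recip hε) (abs_deriv_recip_le hε)).mul_lipschitz
    isOpen_univ hL
  have hb : ∀ {p : Space → ℝ}, Continuous p → HasCompactSupport p →
      MemLp (fun x => p x * recip ε (f x)) 2 := fun {p} hp hc =>
    (hp.memLp_of_hasCompactSupport hc).of_le_mul (c := 1 / ε)
      (hp.aestronglyMeasurable.mul hRm) (.of_forall fun x => by
        rw [norm_mul, mul_comm]
        exact mul_le_mul_of_nonneg_right (hR x) (norm_nonneg _))
  have hg : ∀ a, MemLp (fun x => η x ^ 2 * (deriv (recip ε) (f x) * gr w a x) +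
      deriv3 a (fun y => η y ^ 2) x * recip ε (f x)) 2 := fun a => by
    obtain ⟨M, hM⟩ := hη2.compact.exists_bound_of_continuous hη2.continuous
    exact ((hdm a).of_le_mul (c := M)
      (f := fun x => η x ^ 2 * (deriv (recip ε) (f x) * gr w a x))
      (hη2.continuous.aestronglyMeasurable.mul (hdm a).1)
      (.of_forall fun x => by
        rw [norm_mul]; exact mul_le_mul_of_nonneg_right (hM x) (norm_nonneg _))).add
      (hb (hη2.deriv a).continuous (hη2.deriv a).compact)
  set φ : h1 := mk ⟨hb hη2.continuous hη2.compact, hg, hw⟩ with hφ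
  have key := heq φ
  rw [form_apply, Top.bil] at key
  simp only [hφ, fn_mk, gr_mk, ← hf] at key
  set P : Space → ℝ := fun x => η x ^ 2 * ∑ a, (recip ε (f x) * gr w a x) ^ 2 with hP
  have hPi : Integrable P := by
    obtain ⟨M, hM⟩ := hη.compact.exists_bound_of_continuous hη.continuous
    have hm : ∀ a, MemLp (fun x => η x * (recip ε (f x) * gr w a x)) 2 := fun a =>
      (memLp_gr w a).of_le_mul (c := M * (1 / ε))
        (hη.continuous.aestronglyMeasurable.mul (hRm.mul (memLp_gr w a).1))
        (.of_forall fun x => by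
          rw [norm_mul, norm_mul, mul_assoc]
          exact mul_le_mul (hM x) (mul_le_mul_of_nonneg_right (hR x) (norm_nonneg _))
            (by positivity) ((norm_nonneg _).trans (hM x)))
    refine (integrable_finsetSum Finset.univ fun a _ => (hm a).integrable_sq).congr
      (.of_forall fun x => ?_)
    simp only [hP, Finset.mul_sum, mul_pow]
  have hQ1 : Integrable fun x => ∑ a, deriv3 a η x ^ 2 := by
    refine integrable_finsetSum Finset.univ fun a _ => ?_
    have hc : HasCompactSupport fun x => deriv3 a η x ^ 2 :=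
      (hη.deriv a).compact.mono fun x hx h => hx (by simp [h])
    exact ((hη.deriv a).continuous.pow 2).integrable_of_hasCompactSupport hc
  have hvl : LocallyIntegrableOn (fun x => |v x - e|) Set.univ :=
    (locallyIntegrableOn_univ.2 (hv.1.sub (locallyIntegrable_const e))).norm
  have hQ2 : Integrable fun x => |v x - e| * η x ^ 2 :=
    integrable_mul_of_tsupport hvl hη2.continuous hη2.compact hη2.supp
  have hQi : Integrable fun x => (∑ a, deriv3 a η x ^ 2) + |v x - e| * η x ^ 2 := hQ1.add hQ2
  have hle : ∀ x, (1 / 4 : ℝ) * P x + ((1 / 2 : ℝ) * ∑ a, gr w a x *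
      (η x ^ 2 * (deriv (recip ε) (f x) * gr w a x) + deriv3 a (fun y => η y ^ 2) x *
        recip ε (f x)) + (v x - e) * f x * (η x ^ 2 * recip ε (f x))) ≤
      (∑ a, deriv3 a η x ^ 2) + |v x - e| * η x ^ 2 := by
    intro x
    have hd' : deriv (recip ε) (f x) = -(recip ε (f x) ^ 2) := by
      rw [(hasDerivAt_recip hε _).deriv, recip_eq hε (h0 x), abs_of_nonneg (h0 x), div_pow, one_pow]
    simp only [hP, hd', hd]
    exact pointwise_le _ _ _ _ _ _ (recip_bounds hε (h0 x)).2.2.1 (recip_bounds hε (h0 x)).2.2.2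
  have hint := integrable_bil hv e w φ
  simp only [hφ, fn_mk, gr_mk, ← hf] at hint
  have := integral_mono ((hPi.const_mul (1 / 4 : ℝ)).add hint) hQi hle
  rw [Pi.add_def, integral_add (hPi.const_mul _) hint, integral_const_mul, key, add_zero] at this
  have hsplit : ∫ x, ((∑ a, deriv3 a η x ^ 2) + |v x - e| * η x ^ 2) =
      (∫ x, ∑ a, deriv3 a η x ^ 2) + ∫ x, |v x - e| * η x ^ 2 := integral_add hQ1 hQ2
  rw [hsplit] at this
  linarith

/-- A nonnegative weak solution is almost everywhere zero or almost everywhere positive. -/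
theorem zero_or_pos (hP : BallPoincareStmt) (hv : Bounded v) {e : ℝ} {w : h1}
    (h0 : ∀ x, 0 ≤ fn w x) (heq : ∀ u, form hv e w u = 0) :
    (∀ᵐ x, fn w x = 0) ∨ ∀ᵐ x, 0 < fn w x := by
  rcases eq_or_ne (volume {x | fn w x = 0}) 0 with hz | hz
  · refine Or.inr (measure_mono_null (fun x hx => ?_) hz)
    exact le_antisymm (not_lt.1 hx) (h0 x)
  left
  obtain ⟨C, hC, hpoin⟩ := hP
  set f := fn w with hf
  set B : ℕ → Set Space := fun n => ball 0 ((n : ℝ) + 1) with hB
  have hBu : ∀ x : Space, ∃ n, x ∈ B n := fun x =>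
    ⟨⌈‖x‖⌉₊, mem_ball_zero_iff.2 (lt_add_of_le_of_pos (Nat.le_ceil _) one_pos)⟩
  have hBmono : Monotone B := fun n m hnm =>
    ball_subset_ball (by simpa using (Nat.cast_le (α := ℝ)).2 hnm)
  obtain ⟨n₀, hn₀⟩ : ∃ n, volume ({x | f x = 0} ∩ B n) ≠ 0 := by
    by_contra! h
    refine hz (measure_mono_null (fun x hx => ?_) (measure_iUnion_null h))
    obtain ⟨n, hn⟩ := hBu x
    exact mem_iUnion.2 ⟨n, hx, hn⟩
  suffices main : ∀ n, n₀ ≤ n → ∀ δ : ℝ, 0 < δ → volume ({x | δ ≤ f x} ∩ B n) = 0 by
    refine measure_mono_null (fun x hx => ?_) (measure_iUnion_null (s := fun p : ℕ × ℕ =>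
      {x | 1 / ((p.2 : ℝ) + 1) ≤ f x} ∩ B (n₀ + p.1)) fun p =>
        main _ (Nat.le_add_right _ _) _ (by positivity))
    obtain ⟨n, hn⟩ := hBu x
    obtain ⟨k, hk⟩ := exists_nat_one_div_lt (lt_of_le_of_ne (h0 x) (Ne.symm hx))
    exact mem_iUnion.2 ⟨(n, k), hk.le, hBmono (Nat.le_add_left _ _) hn⟩
  intro n hn δ hδ
  set μ := volume.restrict (B n) with hμ
  have : IsFiniteMeasure μ := isFiniteMeasure_restrict.2 measure_ball_lt_top.ne
  have hres : ∀ s : Set Space, μ.real s = (volume (s ∩ B n)).toReal := fun s => by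
    rw [measureReal_def, hμ, Measure.restrict_apply' measurableSet_ball]
  have hA : 0 < μ.real {x | f x = 0} := by
    rw [hres]
    refine ENNReal.toReal_pos (fun h => hn₀ (measure_mono_null
      (inter_subset_inter_right _ (hBmono hn)) h)) (ne_top_of_le_ne_top measure_ball_lt_top.ne
        (measure_mono inter_subset_right))
  obtain ⟨η, hη, h01, W, -, hKW, hW1⟩ := exists_cutoff isOpen_univ
    (isCompact_closedBall (0 : Space) ((n : ℝ) + 1)) (subset_univ _)
  set K₀ := 4 * (∫ x, ∑ a, deriv3 a η x ^ 2) + 4 * ∫ x, |v x - e| * η x ^ 2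
  set R := C * ((n : ℝ) + 1) ^ 2 * (3 * |K₀|) with hR
  set D := 2 * R + 2 * (R / μ.real {x | f x = 0}) * μ.real univ with hD
  have hmain : ∀ ε : ℝ, 0 < ε →
      (Real.log (ε + δ) - Real.log ε) ^ 2 * μ.real {x | δ ≤ f x} ≤ D := by
    intro ε hε
    have hlg := w.2.weak.comp_C1 isOpen_univ (contDiff_logShift hε) (abs_deriv_logShift_le hε)
    set l : Space → ℝ := fun x => logShift ε (f x) with hl
    set G : Fin 3 → Space → ℝ := fun a x => deriv (logShift ε) (f x) * gr w a x with hG
    have hl0 : logShift ε 0 = 0 := intervalIntegral.integral_same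
    have hlm : MemLp l 2 := (memLp_fn w).of_le_mul (c := 1 / ε)
      ((contDiff_logShift hε).continuous.comp_aestronglyMeasurable (memLp_fn w).1)
      (.of_forall fun x => by
        have := abs_sub_le_of_deriv_le ((contDiff_logShift hε).differentiable one_ne_zero)
          (abs_deriv_logShift_le hε) (f x) 0
        rwa [hl0, sub_zero, sub_zero] at this)
    have hGm : ∀ a, MemLp (G a) 2 := fun a => (memLp_gr w a).of_le_mul (c := 1 / ε)
      (((contDiff_logShift hε).continuous_deriv_one.comp_aestronglyMeasurable (memLp_fn w).1).mul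
        (memLp_gr w a).1)
      (.of_forall fun x => by
        rw [hG, norm_mul]
        exact mul_le_mul_of_nonneg_right (abs_deriv_logShift_le hε _) (norm_nonneg _))
    have hp := hpoin l G ⟨hlm, hGm, hlg⟩ 0 ((n : ℝ) + 1) (by positivity)
    have hle := log_energy hv h0 heq hη hε
    have hgrad : ∀ a, ∫ x in B n, G a x ^ 2 ≤ |K₀| := fun a => by
      refine le_trans ?_ (hle.trans (le_abs_self K₀))
      rw [← integral_indicator measurableSet_ball]
      refine integral_mono_of_nonneg
        (.of_forall fun x => indicator_nonneg (fun y _ => sq_nonneg _) x) ?_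
        (.of_forall fun x => ?_)
      · refine (integrable_finsetSum Finset.univ fun b _ => ?_).congr
          (.of_forall fun x => (Finset.mul_sum _ _ _).symm)
        refine ((memLp_gr w b).of_le_mul (c := 1 / ε) (f := fun x => η x * (recip ε (f x) * gr w b x))
          (hη.continuous.aestronglyMeasurable.mul (((contDiff_recip
            hε).continuous.comp_aestronglyMeasurable (memLp_fn w).1).mul (memLp_gr w b).1))
          (.of_forall fun x => ?_)).integrable_sq.congr (.of_forall fun x => by simp only; ring)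
        rw [norm_mul, norm_mul, Real.norm_of_nonneg (h01 x).1,
          Real.norm_of_nonneg (recip_bounds hε (h0 x)).1]
        exact le_trans (mul_le_of_le_one_left (mul_nonneg (recip_bounds hε (h0 x)).1 (norm_nonneg _))
          (h01 x).2) (mul_le_mul_of_nonneg_right (recip_bounds hε (h0 x)).2.1 (norm_nonneg _))
      · by_cases hx : x ∈ ball (0 : Space) ((n : ℝ) + 1)
        · simp only [indicator_of_mem hx, hW1 x (hKW (ball_subset_closedBall hx)), one_pow,
            one_mul]
          simp only [hG]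
          rw [(hasDerivAt_logShift hε _).deriv, abs_of_nonneg (h0 x), ← recip_eq hε (h0 x)]
          exact Finset.single_le_sum (f := fun b => (recip ε (f x) * gr w b x) ^ 2)
            (fun b _ => sq_nonneg _) (Finset.mem_univ a)
        · simp only [indicator_of_notMem hx]
          exact mul_nonneg (sq_nonneg _) (Finset.sum_nonneg fun b _ => sq_nonneg _)
    set m := ⨍ y in ball (0 : Space) ((n : ℝ) + 1), l y with hm
    have hpm : ∫ x, (l x - m) ^ 2 ∂μ ≤ R := by
      refine hp.trans (mul_le_mul_of_nonneg_left ?_ (by positivity))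
      exact (Finset.sum_le_sum fun a _ => hgrad a).trans_eq (by simp)
    have hlμ : MemLp l 2 μ := hlm.restrict _
    have hint := (hlμ.sub (memLp_const m)).integrable_sq
    simp only [Pi.sub_apply] at hint
    have h1 : m ^ 2 * μ.real {x | f x = 0} ≤ R := by
      refine le_trans ?_ hpm
      refine le_trans (mul_le_mul_of_nonneg_left (measureReal_mono fun x hx => ?_) (sq_nonneg m))
        (mul_meas_ge_le_integral_of_nonneg (.of_forall fun x => sq_nonneg _) hint (m ^ 2))
      show m ^ 2 ≤ (l x - m) ^ 2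
      rw [hl]; simp only [show f x = 0 from hx, hl0]; simp
    have h2 : ∫ x, l x ^ 2 ∂μ ≤ D := by
      refine (integral_mono hlμ.integrable_sq
        ((hint.const_mul 2).add (integrable_const (2 * m ^ 2))) fun x => ?_).trans ?_
      · simp only [Pi.add_apply]; nlinarith [sq_nonneg (l x - 2 * m)]
      · rw [Pi.add_def, integral_add (hint.const_mul 2) (integrable_const _), integral_const_mul,
          integral_const, smul_eq_mul, hD]
        have := mul_le_mul_of_nonneg_right ((le_div_iff₀ hA).2 h1)
          (measureReal_nonneg (μ := μ) (s := univ))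
        nlinarith
    refine le_trans ?_ h2
    refine le_trans (mul_le_mul_of_nonneg_left (measureReal_mono fun x hx => ?_) (sq_nonneg _))
      (mul_meas_ge_le_integral_of_nonneg (.of_forall fun x => sq_nonneg _) hlμ.integrable_sq _)
    show _ ≤ logShift ε (f x) ^ 2
    rw [logShift_eq hε (h0 x)]
    have := Real.log_le_log (by positivity) (show ε + δ ≤ ε + f x by linarith [show δ ≤ f x from hx])
    have := Real.log_le_log hε (le_add_of_nonneg_right hδ.le)
    exact pow_le_pow_left₀ (by linarith) (by linarith) 2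
  have hzero : μ.real {x | δ ≤ f x} = 0 := by
    by_contra hne
    have hpos := lt_of_le_of_ne measureReal_nonneg (Ne.symm hne)
    set M := Real.sqrt (|D| / μ.real {x | δ ≤ f x}) + 1 with hM
    have hMp : 0 < M := add_pos_of_nonneg_of_pos (Real.sqrt_nonneg _) one_pos
    have he : 1 < Real.exp M := Real.one_lt_exp_iff.2 hMp
    have hε : 0 < δ / (Real.exp M - 1) := div_pos hδ (sub_pos.2 he)
    have hne' : Real.exp M - 1 ≠ 0 := (sub_pos.2 he).ne'
    have := hmain _ hε
    rw [← Real.log_div (by positivity) hε.ne',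
      show (δ / (Real.exp M - 1) + δ) / (δ / (Real.exp M - 1)) = Real.exp M by field_simp; ring,
      Real.log_exp] at this
    have hMsq : |D| / μ.real {x | δ ≤ f x} < M ^ 2 := by
      rw [← Real.sq_sqrt (show 0 ≤ |D| / μ.real {x | δ ≤ f x} by positivity)]
      exact pow_lt_pow_left₀ (lt_add_one _) (Real.sqrt_nonneg _) two_ne_zero
    rw [div_lt_iff₀ hpos] at hMsq
    linarith [le_abs_self D]
  rw [hres, ENNReal.toReal_eq_zero_iff] at hzero
  exact hzero.resolve_right (ne_top_of_le_ne_top measure_ball_lt_top.ne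
    (measure_mono inter_subset_right))

end Vale.Agent.P363.KS
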